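import Vale.Agent.P366RB.Defs
import Vale.Agent.P366Z.Calc

/-!
# P366OC: the calculus of `O2`
-/

open Filter Topology Set Asymptotics
open scoped ContDiff
open Vale.Agent.P366.Stmt Vale.Agent.P366Z
open Vale.Agent.P366RB (O2 OC)

noncomputable section

namespace Vale.Agent.P366OC

variable {n : ℕ} {f h : E n → ℝ} {p q a b c : ℝ}

/-- the filter of the far points -/
def fa (n : ℕ) : Filter (E n) := comap (fun x => ‖x‖) atTop

theorem ev (R : ℝ) : ∀ᶠ x in fa n, R < ‖x‖ := tendsto_comap.eventually (eventually_gt_atTop R)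

theorem ev_iff {P : E n → Prop} : (∃ R, ∀ y, R < ‖y‖ → P y) ↔ ∀ᶠ y in fa n, P y :=
  ⟨fun ⟨R, h⟩ => (ev R).mono h, fun h =>
    let ⟨R, h⟩ := eventually_atTop.1 (eventually_comap.1 h)
    ⟨R, fun y k => h _ k.le y rfl⟩⟩

theorem ev_nhds {P : E n → Prop} (h : ∀ᶠ y in fa n, P y) : ∀ᶠ y in fa n, ∀ᶠ z in 𝓝 y, P z :=
  let ⟨R, h⟩ := ev_iff.2 h
  (ev R).mono fun _ k => (continuous_norm.continuousAt.eventually (lt_mem_nhds k)).mono h

theorem bo_iff : BigO q f ↔ f =O[fa n] fun x => ‖x‖ ^ (-q) :=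
  ⟨fun ⟨C, R, h⟩ => .of_bound C ((ev R).mono fun x k => by
      rw [Real.norm_of_nonneg (r := _ ^ _) (by positivity)]; exact h x k), fun h =>
    let ⟨C, h⟩ := h.bound
    let ⟨R, h⟩ := ev_iff.2 h
    ⟨C, R, fun x k => by
      have := h x k
      rwa [Real.norm_of_nonneg (r := _ ^ _) (by positivity)] at this⟩⟩

theorem bo_congr (k : BigO q f) (e : ∀ᶠ y in fa n, h y = f y) : BigO q h :=
  bo_iff.2 ((bo_iff.1 k).congr' (e.mono fun _ m => m.symm) EventuallyEq.rfl)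

theorem bo_add (k : BigO q f) (l : BigO q h) : BigO q fun y => f y + h y :=
  bo_iff.2 ((bo_iff.1 k).add (bo_iff.1 l))

theorem bo_mono (k : BigO q f) (e : p ≤ q) : BigO p f :=
  bo_iff.2 ((bo_iff.1 k).trans (.of_bound' ((ev 1).mono fun x hx => by
    rw [Real.norm_of_nonneg (by positivity), Real.norm_of_nonneg (by positivity)]
    exact Real.rpow_le_rpow_of_exponent_le hx.le (neg_le_neg e))))

theorem bo_mul (k : BigO p f) (l : BigO q h) (e : c ≤ p + q) : BigO c fun y => f y * h y :=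
  bo_mono (bo_iff.2 (((bo_iff.1 k).mul (bo_iff.1 l)).trans (EventuallyEq.isBigO
    ((ev 0).mono fun _ hx => by simp only [neg_add, Real.rpow_add hx])))) e

theorem bo_zero : BigO q fun _ : E n => (0 : ℝ) := bo_iff.2 (isBigO_zero _ _)

theorem bo_lim (k : Tendsto f (fa n) (𝓝 c)) : BigO 0 f :=
  bo_iff.2 (by simpa using k.isBigO_one ℝ)

theorem lim (hq : 0 < q) (k : BigO q fun y => f y - c) : Tendsto f (fa n) (𝓝 c) :=
  tendsto_sub_nhds_zero_iff.1 ((bo_iff.1 k).trans_tendsto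
    ((tendsto_rpow_neg_atTop hq).comp tendsto_comap))

theorem c2 (k : O2 q a f) : ∀ᶠ y in fa n, ContDiffAt ℝ 2 f y :=
  (ev_iff.1 k.sm).mono fun _ m => m.of_le ENat.LEInfty.out

theorem o_congr (k : O2 q a f) (e : ∀ᶠ y in fa n, h y = f y) : O2 q a h :=
  ⟨ev_iff.2 (((ev_iff.1 k.sm).and (ev_nhds e)).mono fun _ m => m.1.congr_of_eventuallyEq m.2),
    bo_congr k.d0 (e.mono fun _ m => by rw [m]),
    fun i => bo_congr (k.d1 i) ((ev_nhds e).mono fun _ m => pd_congr m i),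
    fun i j => bo_congr (k.d2 i j) ((ev_nhds e).mono fun _ m => pd_congr (pd_congr_ev m j) i)⟩

theorem o_add (k : O2 q a f) (l : O2 q b h) : O2 q (a + b) fun y => f y + h y := by
  have s := (c2 k).and (c2 l)
  have e := fun j => s.mono fun _ m => pd_add (diff2 m.1) (diff2 m.2) j
  exact ⟨ev_iff.2 (((ev_iff.1 k.sm).and (ev_iff.1 l.sm)).mono fun _ m => m.1.add m.2),
    bo_congr (bo_add k.d0 l.d0) (.of_forall fun _ => by ring),
    fun i => bo_congr (bo_add (k.d1 i) (l.d1 i)) (e i), fun i j =>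
    bo_congr (bo_add (k.d2 i j) (l.d2 i j)) ((s.and (ev_nhds (e j))).mono fun _ m =>
      (pd_congr m.2 i).trans (pd_add (diffAt_pd m.1.1 j) (diffAt_pd m.1.2 j) i))⟩

theorem o_mul (hq : 0 < q) (k : O2 q a f) (l : O2 q b h) : O2 q (a * b) fun y => f y * h y := by
  have s := (c2 k).and (c2 l)
  have e := fun j => s.mono fun _ m => pd_mul (diff2 m.1) (diff2 m.2) j
  have k0 := bo_lim (lim hq k.d0)
  have l0 := bo_lim (lim hq l.d0)
  refine ⟨ev_iff.2 (((ev_iff.1 k.sm).and (ev_iff.1 l.sm)).mono fun _ m => m.1.mul m.2),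
    bo_congr (bo_add (bo_mul k.d0 l0 (add_zero _).ge) (bo_mul (bo_lim (c := a) tendsto_const_nhds)
      l.d0 (zero_add _).ge)) (.of_forall fun _ => by ring),
    fun i => bo_congr (bo_add (bo_mul (k.d1 i) l0 (add_zero _).ge)
      (bo_mul k0 (l.d1 i) (zero_add _).ge)) (e i), fun i j =>
    bo_congr (bo_add (bo_add (bo_mul (k.d2 i j) l0 (add_zero _).ge)
      (bo_mul (k.d1 j) (l.d1 i) (by linarith))) (bo_add (bo_mul (k.d1 i) (l.d1 j) (by linarith))
      (bo_mul k0 (l.d2 i j) (zero_add _).ge))) ((s.and (ev_nhds (e j))).mono fun _ m => ?_)⟩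
  have a1 := diff2 m.1.1
  have a2 := diff2 m.1.2
  have a3 := diffAt_pd m.1.1 j
  have a4 := diffAt_pd m.1.2 j
  rw [pd_congr m.2 i, pd_add (a3.fun_mul a2) (a1.fun_mul a4), pd_mul a3 a2, pd_mul a1 a4]

theorem o_comp (hq : 0 < q) (k : O2 q a f) {φ : ℝ → ℝ} (hφ : ∀ᶠ t in 𝓝 a, ContDiffAt ℝ ∞ φ t) :
    O2 q (φ a) fun y => φ (f y) := by
  have t := lim hq k.d0
  have h1 : ∀ᶠ t in 𝓝 a, ContDiffAt ℝ ∞ (deriv φ) t := hφ.mono fun _ m => m.derivWithin (by simp)
  have h2 : ContinuousAt (deriv (deriv φ)) a :=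
    (h1.self_of_nhds.derivWithin (m := 0) (by simp)).continuousAt
  have d := fun {ψ : ℝ → ℝ} {x} (m : ContDiffAt ℝ ∞ ψ x) => (m.differentiableAt (by simp)).hasDerivAt
  have s := (c2 k).and (t.eventually (hφ.and h1))
  have e := fun j => s.mono fun _ m => pd_comp (d m.2.1) (diff2 m.1) j
  have b1 := bo_lim (h1.self_of_nhds.continuousAt.tendsto.comp t)
  have b2 := bo_lim (h2.tendsto.comp t)
  refine ⟨ev_iff.2 (((ev_iff.1 k.sm).and (t.eventually hφ)).mono fun y m => m.2.comp y m.1),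
    bo_iff.2 (((d hφ.self_of_nhds).isBigO_sub.comp_tendsto t).trans (bo_iff.1 k.d0)),
    fun i => bo_congr (bo_mul b1 (k.d1 i) (zero_add _).ge) (e i), fun i j =>
    bo_congr (bo_add (bo_mul (bo_mul b2 (k.d1 i) le_rfl) (k.d1 j) (by linarith))
      (bo_mul b1 (k.d2 i j) (zero_add _).ge)) ((s.and (ev_nhds (e j))).mono fun y m => ?_)⟩
  have a1 := diff2 m.1.1
  rw [pd_congr m.2 i, pd_mul (f := fun x => deriv φ (f x))
    ((d m.1.2.2).differentiableAt.comp y a1) (diffAt_pd m.1.1 j),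
    pd_comp (d m.1.2.2) a1]
  rfl

theorem oc : OC := fun _ _ hq =>
  ⟨fun c => ⟨⟨0, fun _ _ => contDiffAt_const⟩, bo_congr bo_zero (.of_forall fun _ => sub_self _),
      fun i => bo_congr bo_zero (.of_forall (pd_const c i)), fun i j => bo_congr bo_zero
        (.of_forall fun y => by rw [funext (pd_const c j), pd_const])⟩,
    fun _ _ _ _ k => ⟨fun e => o_congr k (ev_iff.1 e), fun l => ⟨o_add k l, o_mul hq k l⟩,
      fun _ hφ => o_comp hq k hφ⟩⟩

end Vale.Agent.P366OC
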