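import Vale.Agent.P366CL.NDefs
import Vale.Agent.P366DB.Mu3
import Vale.Agent.P366K3.Str
import Vale.Agent.P366K.Bd

/-!
# P366OC: the deformed data, their energy and momentum
-/

open Set Filter Topology
open Vale.Agent.P366 Vale.Agent.P366.Stmt Vale.Agent.P366K
open Vale.Agent.P366K3 hiding Bo
open Vale.Agent.P366EN (Bo)
open Vale.Agent.P366DB (Cb flx_lin)
open Vale.Agent.P366M (Mfe fe R0)

noncomputable section

namespace Vale.Agent.P366OC

variable {n : ℕ} {q q' t a b m m' : ℝ} {g g' K K' h k : Field n} {W W' V : Fin n → E n → ℝ}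

theorem flx_ev (s : ∀ i, Sf (W i)) (s' : ∀ i, Sf (W' i))
    (e : ∀ᶠ y in cocompact (E n), ∀ i, V i y = a * W i y + b * W' i y)
    (l : Tendsto (flx W) atTop (𝓝 m)) (l' : Tendsto (flx W') atTop (𝓝 m')) :
    Tendsto (flx V) atTop (𝓝 (a * m + b * m')) := by
  obtain ⟨R, hR⟩ := P366EN.ev_iff.1 (((eventually_all.2 s).and (eventually_all.2 s')).and e)
  exact flx_lin (R := R) (fun i y hy => ⟨(hR y hy).1.1 i, (hR y hy).1.2 i, (hR y hy).2 i⟩) l l'

theorem flx_congr (e : ∀ᶠ y in cocompact (E n), ∀ i, V i y = W i y) : flx V =ᶠ[atTop] flx W := by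
  obtain ⟨R, hR⟩ := P366EN.ev_iff.1 e
  filter_upwards [eventually_gt_atTop (max R 0)] with r hr
  have : ∀ θ : Metric.sphere (0 : E n) 1, R < ‖r • (θ : E n)‖ := fun θ => by
    rw [norm_smul, norm_eq_of_mem_sphere θ, mul_one]
    exact ((le_max_left _ _).trans_lt hr).trans_le (le_abs_self r)
  simp only [flx, sphInt, sph, hR _ (this _)]

theorem sf_momT (A : Af q g K) (i j : Fin n) : Sf fun y => momT g K y i j :=
  sf_of (ContDiff.sub (A.sm i j) (ContDiff.mul (P366XR.sm_tr A.met A.sm) (A.met.sm i j)))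

theorem mom_lin (hn : 2 ≤ n) (A : Af q g K) (A' : Af q' g' K')
    (hh : ∀ i j, Bo (n - 2) fun y => h y i j) (hk : ∀ i j, Bo (n - 1) fun y => k y i j)
    (sk : ∀ i j, Sf fun y => k y i j) (e : ∀ᶠ y in cocompact (E n),
      (∀ i j, g' y i j = g y i j + t * h y i j) ∧ ∀ i j, K' y i j = K y i j + t * k y i j)
    (i : Fin n) (l : Tendsto (flx fun j y => momT g K y i j) atTop (𝓝 m))
    (l' : Tendsto (flx fun j y => k y i j - if i = j then ∑ a, k y a a else 0) atTop (𝓝 m')) :
    Tendsto (flx fun j y => momT g' K' y i j) atTop (𝓝 (m + t * m')) := by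
  have s : ∀ j, Sf fun y => k y i j - if i = j then ∑ a, k y a a else 0 := fun j => (sk i j).sub (by
    split_ifs
    exacts [.sum fun a => sk a a, sf_of contDiff_const])
  have s1 := fun j => (sf_momT A i j).add ((sf_of (contDiff_const (c := t))).mul (s j))
  have s2 := fun j => (sf_momT A' i j).sub (s1 j)
  have u : ∀ a b, Bo (n - 2) fun y => up g' a b y - up g a b y := fun a b =>
    ((Bo.sum fun c => Bo.sum fun d => ((A'.u0 a c).mul (hh c d) (zero_add _).ge).mul (A.u0 d b)
      (add_zero _).ge).cm (-t)).congr (e.mono fun y hy => by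
        have e1 : mat g' y = mat g y + t • mat h y := Matrix.ext hy.1
        have e2 : (mat g' y)⁻¹ - (mat g y)⁻¹ = -t • ((mat g' y)⁻¹ * (mat h y * (mat g y)⁻¹)) := by
          have := congrArg (fun B => (mat g' y)⁻¹ * (B * (mat g y)⁻¹)) e1
          simp only [Matrix.add_mul, Matrix.mul_add, Matrix.smul_mul, Matrix.mul_smul,
            P366XR.mul_inv A.met, Matrix.mul_one, ← Matrix.mul_assoc _ (mat g' y),
            P366XR.inv_mul A'.met, Matrix.one_mul] at this
          rw [neg_smul, ← sub_add_cancel_left (mat g' y)⁻¹, ← this]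
        refine (congrFun₂ e2 a b).trans ?_
        simp only [Matrix.smul_apply, Matrix.mul_apply, Finset.mul_sum, smul_eq_mul, mul_assoc]
        rfl)
  have q0 := lt_min A.q0 A'.q0
  have q1 := min_le_left q q'
  have q2 := min_le_right q q'
  have l1 := (rad_zero.near s2 q0 fun j => (((((Bo.sum fun a => Bo.sum fun b => (u a b).mul
    (A.k0 a b) (by linarith)).add ((Bo.sum fun a => A'.hi (hk · a) a).cm t |>.mono
      (by linarith))).mul (A'.g0 i j) (add_zero _).ge).add ((A.tr0.mul (hh i j) (by linarith)).cm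
        t)).add (((Bo.sum fun a => hk a a).mul (j2_sub (A'.g2 i j)).d0 (by linarith)).cm t)).cm
          (-1) |>.congr (e.mono fun y hy => ?_)).flx hn
  · simpa using flx_ev (a := 1) (b := 1) s1 s2 (.of_forall fun y j => by ring)
      (flx_ev (a := 1) (b := t) (sf_momT A i) s (.of_forall fun y j => by ring) l l') l1
  · have e1 : tr g' K' y = ∑ a, ∑ b, up g' a b y * K y a b + t * ∑ a, ∑ b, up g' a b y * k y b a := by
      simp only [tr, hy.2, mul_add, Finset.sum_add_distrib, Finset.mul_sum, mul_left_comm t]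
      rw [Finset.sum_comm (f := fun a b => up g' a b y * (t * k y b a))]
      simp only [A'.met.up_sy _ _ y]
    simp only [momT, e1, hy.2 i j, sub_mul, Finset.sum_sub_distrib, Matrix.one_apply]
    rw [hy.1 i j, tr]
    split_ifs <;> ring

theorem ne_at {M : Type} [Mfe n M] {D : P366M.Exterior n M} {h k : P366M.Fld n M} {dE : ℝ}
    {P dP : Fin n → ℝ} (hn : 3 ≤ n) (H : D.IsAF) (hm : D.IsEnergy m) (hP : D.IsMomentum P)
    (v : Var0 h k dE dP) (hg : P366M.Met (fam D.g h t)) : ∃ D' : P366M.Exterior n M, D'.F = D.F ∧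
      D'.g = fam D.g h t ∧ D'.K = fam D.K k t ∧ D'.IsAF ∧ D'.IsEnergy (m + t * dE) ∧
        D'.IsMomentum fun i => P i + t * dP i := by
  let D' : P366M.Exterior n M := ⟨D.F, fam D.g h t, fam D.K k t, D.dom, D.bdry, hg,
    smT_fam D.smK v.sk.sm t, fun x i j => by simp only [fam, D.syK x i j, v.sk.sy x i j]⟩
  have c : ∀ i j, Cb (R0 M) 1 t (fun y => fe D.g y i j) (fun y => fe h y i j)
      fun y => fe D'.g y i j := fun i j _ hy =>
    ⟨D.met.sm.fj_at hy i j, v.sh.sm.fj_at hy i j, congrArg (· + _) (one_mul _).symm⟩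
  have d : ∀ i j, Cb (R0 M) 1 t (fun y => fe D.K y i j) (fun y => fe k y i j)
      fun y => fe D'.K y i j := fun i j _ hy =>
    ⟨D.smK.fj_at hy i j, v.sk.sm.fj_at hy i j, congrArg (· + _) (one_mul _).symm⟩
  have n3 : (3 : ℝ) ≤ n := by exact_mod_cast hn
  have H' : D'.IsAF := by
    obtain ⟨q, hq, H⟩ := H
    have q1 := min_le_left q (n - 2)
    have q2 := min_le_right q (n - 2)
    refine ⟨min q (n - 2), lt_min hq (by linarith), fun i j a b => ?_⟩
    obtain ⟨v1, v2, v3, v4, v5⟩ := H i j a b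
    obtain ⟨w1, w2, w3, w4, w5⟩ := v.dec i j a b
    exact ⟨Cb.bo (R := R0 M) (a := 1) (b := t) (fun y hy => ⟨(c i j y hy).1.sub contDiffAt_const,
      (c i j y hy).2.1, by linarith [(c i j y hy).2.2]⟩) (bo_mono v1 q1) (bo_mono w1 q2),
      ((c i j).pd a).bo (bo_mono v2 (by linarith)) (bo_mono w2 (by linarith)),
      (((c i j).pd a).pd b).bo (bo_mono v3 (by linarith)) (bo_mono w3 (by linarith)),
      (d i j).bo (bo_mono v4 (by linarith)) (bo_mono w4 (by linarith)),
      ((d i j).pd a).bo (bo_mono v5 (by linarith)) (bo_mono w5 (by linarith))⟩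
  refine ⟨D', rfl, rfl, rfl, H', one_mul m ▸ flx_lin
    (fun i => (Cb.sum fun j => ((c i j).pd j).sub ((c j j).pd i)).half) hm v.en, fun i => ?_⟩
  obtain ⟨q, -, A⟩ := P366K3.af_of hn H
  obtain ⟨q', -, A'⟩ := P366K3.af_of hn H'
  have e : ∀ D : P366M.Exterior n M, ∀ᶠ y in cocompact (E n), ∀ j,
      momT (fe D.g) (fe D.K) y i j = momT (gE D) (kE D) y i j := fun D => (P366K3.far D).mono
    fun y hy j => by simp only [momT, tr, P366Z.up_of_eq hy.2.1.eq_of_nhds, hy.2.1.eq_of_nhds,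
      hy.2.2.eq_of_nhds]
  have l := mom_lin (t := t) (h := fe h) (k := fe k) (by omega) A A'
    (fun a b => P366EN.bo_iff.1 (v.dec a b a a).1)
    (fun a b => P366EN.bo_iff.1 (v.dec a b a a).2.2.2.1)
    (fun a b => (P366K3.far D).mono fun y hy => v.sk.sm.fj_at hy.1 a b)
    (((P366K3.far D).and (P366K3.far D')).mono fun y hy => by
      rw [← hy.1.2.1.eq_of_nhds, ← hy.1.2.2.eq_of_nhds, ← hy.2.2.1.eq_of_nhds,
        ← hy.2.2.2.eq_of_nhds]
      exact ⟨fun _ _ => rfl, fun _ _ => rfl⟩) i ((hP i).congr' (flx_congr (e D))) (v.mo i)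
  exact l.congr' (flx_congr (e D')).symm

theorem ne : P366CL.NE := fun _ _ _ _ _ _ _ _ _ _ hn H hm hP v =>
  (met_fam hn H v).mono fun _ => ne_at hn H hm hP v

end Vale.Agent.P366OC
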