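import Vale.Agent.P366OC.Tay
import Vale.Agent.P366RY.Jet

/-!
# P366OC: support functions and quadrics
-/

set_option maxSynthPendingDepth 3

open Set Filter Topology Metric
open scoped ContDiff RealInnerProductSpace
open Vale.Agent.P366.Stmt Vale.Agent.P366Z Vale.Agent.P366IV Vale.Agent.P366RY
open Vale.Agent.P354YQ (JD SA le_inf)

noncomputable section

namespace Vale.Agent.P366OC

variable {n : ℕ} {g K : Field n} {z : E n} {u : E n → ℝ}

theorem jd_ball (hu : Smooth u) : ∃ C, 0 < C ∧ ∀ w ∈ closedBall (0 : E n) 1, JD 3 u w C := by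
  have h : ∀ i : ℕ, ∃ C, ∀ w ∈ closedBall (0 : E n) 1, ‖iteratedFDeriv ℝ i u w‖ ≤ C := fun i =>
    (isCompact_closedBall _ _).exists_bound_of_continuousOn
      (ContDiff.continuous_iteratedFDeriv (le_inf i) hu).continuousOn
  choose C hC using h
  refine ⟨1 + ∑ i ∈ Finset.range 4, |C i|, by positivity, fun w hw => ⟨SA.of hu, fun i _ m => ?_⟩⟩
  linarith [hC i w hw, le_abs_self (C i), Finset.single_le_sum (f := fun i => |C i|)
    (fun i _ => abs_nonneg _) (Finset.mem_range.2 (Nat.lt_succ_of_le m))]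

theorem jet_ex (hu : Smooth u) (z : E n) : ∃ (p : E n) (Q : Op n), P366IV.Sym Q ∧
    (∀ v, ⟪p, v⟫ = fderiv ℝ u z v) ∧ ∀ v w, ⟪Q v, w⟫ = fderiv ℝ (fderiv ℝ u) z v w := by
  have h : ∀ v w, ⟪InnerProductSpace.continuousLinearMapOfBilin (𝕜 := ℝ)
      (fderiv ℝ (fderiv ℝ u) z) v, w⟫ = fderiv ℝ (fderiv ℝ u) z v w :=
    InnerProductSpace.continuousLinearMapOfBilin_apply _
  refine ⟨(InnerProductSpace.toDual ℝ (E n)).symm (fderiv ℝ u z), _, fun v w => ?_,
    fun v => InnerProductSpace.toDual_symm_apply, h⟩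
  rw [h, real_inner_comm, h]
  exact ((hu.c2 z).isSymmSndFDerivAt (by simp)).eq _ _

theorem cht : CHT := by
  intro n g K z hg hK
  refine ⟨fun u hu u0 ⟨i, hi⟩ ht => ?_, fun p Q hp hQ => ?_⟩
  · obtain ⟨p, Q, hQ, e1, e2⟩ := jet_ex hu z
    have h1 : ∀ i, pd i u z = p i := fun i => by
      rw [pd_eq (hu.diff z), ← e1]; simp [EuclideanSpace.inner_single_right]
    have h2 : ∀ i j, pd i (pd j u) z = Q (EuclideanSpace.single j 1) i := fun i j => by
      rw [pd_comm (hu.c2 z), pd_pd_eq (hu.c2 z), ← e2]; simp [EuclideanSpace.inner_single_right]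
    have hp : p ≠ 0 := fun e => hi (by rw [h1, e]; rfl)
    rw [th n g K u z p Q hg h1 h2 hp] at ht
    have c : ContinuousAt (fun ε : ℝ => Th g K z p (Q - ε • ContinuousLinearMap.id ℝ _)) 0 :=
      (cd_Th hg hK hp).continuousAt.comp (f := fun ε : ℝ =>
        (z, p, Q - ε • ContinuousLinearMap.id ℝ (E n))) (by fun_prop)
    obtain ⟨ε, e3, e0⟩ := (((c.eventually (lt_mem_nhds (by simpa using ht))).filter_mono
      nhdsWithin_le_nhds).and (self_mem_nhdsWithin (s := Ioi (0 : ℝ)))).exists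
    have e0 : 0 < ε := e0
    have sF : Smooth fun y => u (z + y) := ContDiff.comp hu (contDiff_const.add contDiff_id)
    obtain ⟨C, C0, hC⟩ := jd_ball sF
    generalize hP : Q - ε • ContinuousLinearMap.id ℝ (E n) = P at e3
    have e4 : ∀ v w, ⟪P v, w⟫ = ⟪Q v, w⟫ - ε * ⟪v, w⟫ := fun v w => by
      simp [← hP, inner_sub_left, inner_smul_left]
    obtain ⟨ρ, ⟨r1, r2, r3⟩, r0⟩ := (((show ∀ᶠ ρ : ℝ in 𝓝 0, ρ < 1 from gt_mem_nhds one_pos).and
      (((show ContinuousAt (fun ρ : ℝ => 3 * (‖P‖ * ρ)) 0 by fun_prop).eventually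
        (gt_mem_nhds (a := ‖p‖) (by simpa using hp))).and
      ((show ContinuousAt (fun ρ : ℝ => 16 * C * ρ) 0 by fun_prop).eventually
        (gt_mem_nhds (a := ε) (by simpa using e0))))).filter_mono nhdsWithin_le_nhds |>.and
      (self_mem_nhdsWithin (s := Ioi (0 : ℝ)))).exists
    refine ⟨p, P, hp, fun v w => by
      rw [e4, real_inner_comm (P w), e4, hQ, real_inner_comm (Q w), real_inner_comm w], e3, ρ, r0,
      fun y hy y0 => ?_⟩
    have k := ((tay n p P ρ r0 hp r2.le).2 ℝ _ C y hy).2.2 fun w hw =>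
      hC w (mem_closedBall_zero_iff.2 (hw.2.trans r1.le))
    have e5 : fderiv ℝ (fun y => u (z + y)) = fun y => fderiv ℝ u (z + y) :=
      funext fun y => fderiv_comp_add_left z
    rw [e5, fderiv_comp_add_left] at k
    simp only [add_zero, u0, sub_zero, ← e1, ← e2, smul_eq_mul] at k
    have k1 := hy.1
    rw [Pq, e4, real_inner_self_eq_norm_sq] at k1
    have k2 : 16 * C * ‖y‖ < ε := (mul_le_mul_of_nonneg_left hy.2 (by positivity)).trans_lt r3
    nlinarith [(abs_le.1 k).1, mul_lt_mul_of_pos_right k2 (pow_pos (norm_pos_iff.2 y0) 2)]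
  · let b : ContDiffBump z := ⟨1, 2, one_pos, one_lt_two⟩
    have e : ∀ y ∈ ball z 1, b y * qf z p Q y = qf z p Q y := fun y hy => by
      rw [b.one_of_mem_closedBall (ball_subset_closedBall hy), one_mul]
    have ev : (fun y => b y * qf z p Q y) =ᶠ[𝓝 z] qf z p Q :=
      mem_of_superset (ball_mem_nhds z one_pos) e
    have h1 : ∀ i, pd i (fun y => b y * qf z p Q y) z = p i := fun i => by
      rw [pd_congr ev, pd_qf hQ]; simp
    refine ⟨fun y => b y * qf z p Q y, b.contDiff.mul (sm_qf z p Q), fun y hy => ?_, e, ?_,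
      th n g K _ z p Q hg h1 (fun i j => by rw [pd_congr (pd_congr_ev ev j), pd2_qf hQ]) hp⟩
    · exact mul_eq_zero_of_left (b.zero_of_le_dist (not_le.1 (mt mem_closedBall.2 hy)).le) _
    · by_contra! h
      exact hp (by ext i; rw [← h1, h]; rfl)

end Vale.Agent.P366OC
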