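import Mathlib.Analysis.ODE.ExistUnique
import Mathlib.Analysis.InnerProductSpace.Dual
import Mathlib.Analysis.InnerProductSpace.Calculus
import Mathlib.Analysis.Normed.Module.FiniteDimension

/-!
# P366OC: existence for two ordinary differential equations
-/

set_option maxSynthPendingDepth 3

open Set Metric ContinuousLinearMap
open scoped RealInnerProductSpace NNReal

noncomputable section

namespace Vale.Agent.P366OC

/-- The theorem of Picard and Lindeloef, backwards, with the location of the solution. -/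
theorem pl {F : Type} [NormedAddCommGroup F] [NormedSpace ℝ F] [CompleteSpace F] {f : ℝ → F → F}
    {s₁ s₂ a L K : ℝ} {x : F} (h : s₁ ≤ s₂) (a0 : 0 ≤ a) (L0 : 0 ≤ L) (K0 : 0 ≤ K)
    (lip : ∀ t ∈ Icc s₁ s₂, ∀ y ∈ closedBall x a, ∀ z ∈ closedBall x a,
      ‖f t y - f t z‖ ≤ K * ‖y - z‖)
    (c : ∀ y ∈ closedBall x a, ContinuousOn (f · y) (Icc s₁ s₂))
    (b : ∀ t ∈ Icc s₁ s₂, ∀ y ∈ closedBall x a, ‖f t y‖ ≤ L) (m : L * (s₂ - s₁) ≤ a) :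
    ∃ α : ℝ → F, α s₂ = x ∧ ∀ t ∈ Icc s₁ s₂,
      α t ∈ closedBall x a ∧ HasDerivWithinAt α (f t (α t)) (Icc s₁ s₂) t := by
  lift a to ℝ≥0 using a0
  lift L to ℝ≥0 using L0
  lift K to ℝ≥0 using K0
  have hf : IsPicardLindelof f (⟨s₂, h, le_rfl⟩ : Icc s₁ s₂) x a 0 L K :=
    ⟨fun t ht => .of_dist_le_mul fun y hy z hz => by
      rw [dist_eq_norm, dist_eq_norm]; exact lip t ht y hy z hz, c, b, by
      simpa [max_eq_right (sub_nonneg.2 h)] using m⟩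
  have hx : x ∈ closedBall x (0 : ℝ≥0) := mem_closedBall_self le_rfl
  obtain ⟨α, hα⟩ := ODE.FunSpace.exists_isFixedPt_next hf hx
  refine ⟨α.compProj, (ODE.FunSpace.compProj_val (t := ⟨s₂, h, le_rfl⟩)).trans
    α.apply_of_zero, fun t ht => ⟨α.compProj_mem_closedBall hf.mul_max_le, ?_⟩⟩
  refine (ODE.hasDerivWithinAt_picard_Icc ⟨h, le_rfl⟩ hf.continuousOn_uncurry
    α.continuous_compProj.continuousOn (fun _ _ => α.compProj_mem_closedBall hf.mul_max_le)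
    x ht).congr_of_mem (fun t' ht' => ?_) ht
  nth_rw 1 [← hα]
  rw [ODE.FunSpace.compProj_of_mem ht', ODE.FunSpace.next_apply]

variable {F : Type} [NormedAddCommGroup F] [InnerProductSpace ℝ F] [FiniteDimensional ℝ F]

/-- The vector of a covector. -/
def TT : (F →L[ℝ] ℝ) →L[ℝ] F :=
  (InnerProductSpace.toDual ℝ F).symm.toContinuousLinearEquiv.toContinuousLinearMap

theorem TT_ap (l : F →L[ℝ] ℝ) (v : F) : ⟪TT l, v⟫ = l v := InnerProductSpace.toDual_symm_apply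

theorem TT_le : ‖TT (F := F)‖ ≤ 1 :=
  opNorm_le_bound _ zero_le_one fun l =>
    ((InnerProductSpace.toDual ℝ F).symm.norm_map l).trans_le (one_mul _).ge

abbrev D2 (F : Type) [NormedAddCommGroup F] [InnerProductSpace ℝ F] : Type :=
  (F × F) →L[ℝ] (F × F) →L[ℝ] ℝ

omit [FiniteDimensional ℝ F] in
theorem bc_le (D : D2 F) (f g : F →L[ℝ] F × F) {a b c : ℝ} (h : ‖D‖ ≤ a) (k : ‖f‖ ≤ b)
    (l : ‖g‖ ≤ c) : ‖D.bilinearComp f g‖ ≤ a * b * c := by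
  have a0 := (norm_nonneg _).trans h
  have b0 := (norm_nonneg _).trans k
  have c0 := (norm_nonneg _).trans l
  refine opNorm_le_bound₂ _ (by positivity) fun v w => (D.le_opNorm₂ _ _).trans ?_
  refine (mul_le_mul (mul_le_mul h (f.le_of_opNorm_le k v) (norm_nonneg _) a0)
    (g.le_of_opNorm_le l w) (norm_nonneg _) (by positivity)).trans_eq (by ring)

theorem bc_cont {D : ℝ → D2 F} {f g : ℝ → F →L[ℝ] F × F} {I : Set ℝ} (h : ContinuousOn D I)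
    (k : ContinuousOn f I) (l : ContinuousOn g I) :
    ContinuousOn (fun s => (D s).bilinearComp (f s) (g s)) I :=
  continuousOn_clm_apply.2 fun _ => continuousOn_clm_apply.2 fun _ =>
    (h.clm_apply (k.clm_apply continuousOn_const)).clm_apply (l.clm_apply continuousOn_const)

/-- The inner product, and the two parts of the right hand side. -/
def iS : F →L[ℝ] F →L[ℝ] ℝ := innerSL ℝ
def b0 (ε : ℝ) (D : D2 F) (A : F →L[ℝ] F) : F →L[ℝ] F →L[ℝ] ℝ :=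
  ε • iS + D.bilinearComp (inr ℝ F F ∘L A) (inr ℝ F F ∘L A) -
    D.bilinearComp (inl ℝ F F) (inl ℝ F F)
def b1 (D : D2 F) (A Q : F →L[ℝ] F) : F →L[ℝ] F →L[ℝ] ℝ :=
  D.bilinearComp (inr ℝ F F ∘L Q) (inr ℝ F F ∘L A - inl ℝ F F) +
    D.bilinearComp (inr ℝ F F ∘L A - inl ℝ F F) (inr ℝ F F ∘L Q)

omit [FiniteDimensional ℝ F] in
theorem b_ap (ε : ℝ) (D : D2 F) (A Q : F →L[ℝ] F) (v w : F) : (b0 ε D A + b1 D A Q) v w =
    ε * ⟪v, w⟫ + D (0, Q v + A v) (0, Q w + A w) - D (v, Q v) (w, Q w) := by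
  have e : ∀ v, ((0 : F), Q v + A v) = (0, Q v) + (0, A v) ∧ (v, Q v) = (v, 0) + (0, Q v) :=
    fun v => by simp
  rw [(e v).1, (e v).2, (e w).1, (e w).2]
  simp only [b0, b1, add_apply, sub_apply, smul_apply, bilinearComp_apply, comp_apply, inr_apply,
    inl_apply, map_add, map_sub, smul_eq_mul]
  change ε * ⟪v, w⟫ + _ - _ + _ = _
  ring

omit [FiniteDimensional ℝ F] in
theorem inr_le {A : F →L[ℝ] F} {c : ℝ} (h : ‖A‖ ≤ c) : ‖inr ℝ F F ∘L A‖ ≤ c :=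
  opNorm_le_bound _ ((norm_nonneg _).trans h) fun v => by
    simpa [Prod.norm_def] using A.le_of_opNorm_le h v

omit [FiniteDimensional ℝ F] in
theorem inl_le : ‖inl ℝ F F‖ ≤ 1 := opNorm_le_bound _ zero_le_one fun v => by simp [Prod.norm_def]

omit [FiniteDimensional ℝ F] in
theorem b1_le {D : D2 F} {A : F →L[ℝ] F} {C : ℝ} (c1 : 1 ≤ C) (h : ‖D‖ ≤ C) (k : ‖A‖ ≤ C)
    (Q : F →L[ℝ] F) : ‖b1 D A Q‖ ≤ 4 * C ^ 2 * ‖Q‖ := by
  have u : ‖inr ℝ F F ∘L A - inl ℝ F F‖ ≤ 2 * C :=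
    (norm_sub_le_of_le (inr_le k) inl_le).trans (by linarith)
  exact (norm_add_le_of_le (bc_le _ _ _ h (inr_le le_rfl) u)
    (bc_le _ _ _ h u (inr_le le_rfl))).trans_eq (by ring)

/-- The right hand side. -/
def rh (ε : ℝ) (D : D2 F) (A Q : F →L[ℝ] F) : F →L[ℝ] F := TT ∘L (b0 ε D A + b1 D A Q)

theorem rh_ap (ε : ℝ) (D : D2 F) (A Q : F →L[ℝ] F) (v w : F) : ⟪rh ε D A Q v, w⟫ =
    ε * ⟪v, w⟫ + D (0, Q v + A v) (0, Q w + A w) - D (v, Q v) (w, Q w) :=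
  (TT_ap _ _).trans (b_ap ε D A Q v w)

theorem T_le (β : F →L[ℝ] F →L[ℝ] ℝ) : ‖TT ∘L β‖ ≤ ‖β‖ :=
  (opNorm_comp_le _ _).trans (mul_le_of_le_one_left (norm_nonneg _) TT_le)

theorem rh_lip {D : D2 F} {A : F →L[ℝ] F} {C : ℝ} (c1 : 1 ≤ C) (h : ‖D‖ ≤ C) (k : ‖A‖ ≤ C) (ε : ℝ)
    (y z : F →L[ℝ] F) : ‖rh ε D A y - rh ε D A z‖ ≤ 4 * C ^ 2 * ‖y - z‖ := by
  rw [rh, rh, ← comp_sub, add_sub_add_left_eq_sub]
  refine (T_le _).trans (le_of_eq_of_le (congrArg _ ?_) (b1_le c1 h k _))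
  ext v w
  simp only [b1, add_apply, sub_apply, bilinearComp_apply, comp_apply, map_sub]
  ring

theorem rh_le {D : D2 F} {A : F →L[ℝ] F} {C ε : ℝ} (c1 : 1 ≤ C) (h : ‖D‖ ≤ C) (k : ‖A‖ ≤ C)
    (e0 : 0 ≤ ε) (y : F →L[ℝ] F) : ‖rh ε D A y‖ ≤ ε + C * C * C + C * 1 * 1 + 4 * C ^ 2 * ‖y‖ := by
  have k3 : ‖ε • iS (F := F)‖ ≤ ε := by
    rw [norm_smul, Real.norm_of_nonneg e0]
    exact mul_le_of_le_one_right e0 (norm_innerSL_le ℝ)
  exact (T_le _).trans (norm_add_le_of_le (norm_sub_le_of_le (norm_add_le_of_le k3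
    (bc_le _ _ _ h (inr_le k) (inr_le k))) (bc_le _ _ _ h inl_le inl_le)) (b1_le c1 h k y))

theorem rh_cont {D : ℝ → D2 F} {A : ℝ → F →L[ℝ] F} {I : Set ℝ} (cD : ContinuousOn D I)
    (cA : ContinuousOn A I) (ε : ℝ) (y : F →L[ℝ] F) :
    ContinuousOn (fun s => rh ε (D s) (A s) y) I := by
  have cI : ContinuousOn (fun s => inr ℝ F F ∘L A s) I := continuousOn_const.clm_comp cA
  have cU : ContinuousOn (fun s => inr ℝ F F ∘L A s - inl ℝ F F) I := cI.sub continuousOn_const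
  have c0 : ContinuousOn (fun s => b0 ε (D s) (A s)) I :=
    (continuousOn_const.add (bc_cont cD cI cI)).sub
      (bc_cont cD continuousOn_const continuousOn_const)
  have c1 : ContinuousOn (fun s => b1 (D s) (A s) y) I :=
    (bc_cont cD continuousOn_const cU).add (bc_cont cD cU continuousOn_const)
  exact continuousOn_const.clm_comp (c0.add c1)

/-- The equation of Riccati type, in which the quadratic terms cancel. -/
theorem qode {D : ℝ → D2 F} {A : ℝ → F →L[ℝ] F} {s₁ s₂ ε C : ℝ} {Q₂ : F →L[ℝ] F} (h : s₁ ≤ s₂)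
    (c1 : 1 ≤ C) (e0 : 0 ≤ ε) (cD : ContinuousOn D (Icc s₁ s₂)) (cA : ContinuousOn A (Icc s₁ s₂))
    (b : ∀ s ∈ Icc s₁ s₂, ‖D s‖ ≤ C ∧ ‖A s‖ ≤ C ∧ ∀ u u', D s u u' = D s u' u)
    (m : 10 * C ^ 3 * (s₂ - s₁) ≤ 1) (sQ : ∀ v w, ⟪Q₂ v, w⟫ = ⟪v, Q₂ w⟫) :
    ∃ Q : ℝ → F →L[ℝ] F, Q s₂ = Q₂ ∧ ∀ s ∈ Icc s₁ s₂, (∀ v w, ⟪Q s v, w⟫ = ⟪v, Q s w⟫) ∧
      ‖Q s‖ ≤ 2 * ‖Q₂‖ + 1 + ε ∧
      HasDerivWithinAt Q (rh ε (D s) (A s) (Q s)) (Icc s₁ s₂) s := by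
  have n := norm_nonneg Q₂
  have nb : ∀ Q ∈ closedBall Q₂ (‖Q₂‖ + 1 + ε), ‖Q‖ ≤ 2 * ‖Q₂‖ + 1 + ε := fun Q hQ => by
    linarith [norm_le_of_mem_closedBall hQ]
  have p2 : C ≤ C ^ 3 := le_self_pow₀ c1 (by norm_num)
  have p3 : C ^ 2 ≤ C ^ 3 := pow_le_pow_right₀ c1 (by norm_num)
  obtain ⟨Q, q0, hQ⟩ := pl (f := fun s Q => rh ε (D s) (A s) Q)
    (x := Q₂) (a := ‖Q₂‖ + 1 + ε) (L := 10 * C ^ 3 * (‖Q₂‖ + 1 + ε)) (K := 4 * C ^ 2) h
    (by positivity) (by positivity) (by positivity)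
    (fun t ht y _ z _ => rh_lip c1 (b t ht).1 (b t ht).2.1 ε y z) (fun y _ => rh_cont cD cA ε y)
    (fun t ht y hy => (rh_le c1 (b t ht).1 (b t ht).2.1 e0 y).trans (by
      have := mul_le_mul p3 (nb y hy) (norm_nonneg _) (by positivity)
      nlinarith [mul_nonneg (sub_nonneg.2 (c1.trans p2)) e0,
        mul_nonneg (by positivity : 0 ≤ C ^ 3) n]))
    (by nlinarith [mul_le_mul_of_nonneg_right m (by positivity : 0 ≤ ‖Q₂‖ + 1 + ε)])
  refine ⟨Q, q0, fun s hs => ⟨fun v w => ?_, nb _ (hQ s hs).1, (hQ s hs).2⟩⟩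
  have := (convex_Icc s₁ s₂).norm_image_sub_le_of_norm_hasDerivWithin_le (C := 0)
    (f := fun s => ⟪Q s v, w⟫ - ⟪Q s w, v⟫) (f' := fun _ => 0) (fun t ht => by
      have d := fun v w : F => ((hQ t ht).2.clm_apply (hasDerivWithinAt_const t _ v)).inner ℝ
        (hasDerivWithinAt_const t _ w)
      refine ((d v w).sub (d w v)).congr_deriv ?_
      simp only [map_zero, add_zero, inner_zero_right, zero_add, rh_ap]
      rw [(b t ht).2.2 (0, Q t w + _), (b t ht).2.2 (w, _), real_inner_comm v w, sub_self])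
    (fun _ _ => norm_zero.le) ⟨h, le_rfl⟩ hs
  rw [q0, sQ, real_inner_comm (Q₂ w), sub_self, sub_zero, zero_mul, norm_le_zero_iff,
    sub_eq_zero] at this
  rw [this, real_inner_comm]

end Vale.Agent.P366OC
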