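import Vale.Agent.P366IV.Defs
import Vale.Agent.P366OC.Ode

/-!
# P366OC: the jets along a curve
-/

set_option maxSynthPendingDepth 3

open Set Filter Topology Metric ContinuousLinearMap
open scoped ContDiff RealInnerProductSpace
open Vale.Agent.P366.Stmt Vale.Agent.P366Z Vale.Agent.P366IV
open Vale.Agent.P354YQ (SA JB JD le_inf)

noncomputable section

namespace Vale.Agent.P366OC

theorem jb_cpt {E F : Type} [NormedAddCommGroup E] [NormedSpace ℝ E] [NormedAddCommGroup F]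
    [NormedSpace ℝ F] (k : ℕ) {K : Set E} (hK : IsCompact K) {f : E → F} (h : ∀ x ∈ K, SA f x) :
    ∃ c, ∀ x ∈ K, JB k f x c :=
  (hK.exists_bound_of_continuousOn (f := fun x (i : Fin (k + 1)) => ‖iteratedFDeriv ℝ i f x‖)
    fun x hx => (continuousAt_pi.2 fun i : Fin (k + 1) =>
      ((h x hx).at.continuousAt_iteratedFDeriv (le_inf i)).norm).continuousWithinAt).imp
    fun _ hc x hx => ⟨h x hx, fun i hi => ((le_abs_self _).trans (norm_le_pi_norm
      (fun i : Fin (k + 1) => ‖iteratedFDeriv ℝ i f x‖) ⟨i, by omega⟩)).trans (hc x hx)⟩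

theorem jb_sum {E ι : Type} [NormedAddCommGroup E] [NormedSpace ℝ E] {k : ℕ} {f : ι → E → ℝ}
    {z : E} {c : ι → ℝ} (s : Finset ι) (h : ∀ i, JB k (f i) z (c i)) :
    JB k (fun w => ∑ i ∈ s, f i w) z (∑ i ∈ s, c i) := by
  classical
  induction s using Finset.induction_on with
  | empty => simpa using JB.const (k := k) (z := z) (0 : ℝ)
  | insert a s ha ih => simpa only [Finset.sum_insert ha] using (h a).add ih

variable {n : ℕ} {g K : Field n} {N : E n → ℝ} {X : Fin n → E n → ℝ} {x p : E n} {l : ℝ}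

/-- the inverse metric as a form -/
def uu (g : Field n) (x a b : E n) : ℝ := ∑ i, ∑ j, up g i j x * a i * b j

theorem uu_sy (hg : Met g) (x a b : E n) : uu g x a b = uu g x b a := by
  rw [uu, Finset.sum_comm]
  exact Finset.sum_congr rfl fun i _ => Finset.sum_congr rfl fun j _ => by rw [hg.up_sy]; ring

theorem uu_pos (hg : Met g) (x : E n) (h : p ≠ 0) : 0 < uu g x p p :=
  hg.up_pos x (ξ := fun i => p i) fun e => h (by ext i; exact congrFun e i)

theorem wn_pos (hg : Met g) (x : E n) (h : p ≠ 0) : 0 < wn g x p := Real.sqrt_pos.2 (uu_pos hg x h)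

theorem co_cd (i : Fin n) : ContDiff ℝ ∞ fun q : E n × E n => q.2 i :=
  (EuclideanSpace.proj (𝕜 := ℝ) i).contDiff.comp contDiff_snd

theorem wn_sa (hg : Met g) (h : p ≠ 0) : SA (fun q : E n × E n => wn g q.1 q.2) (x, p) :=
  (continuous_snd.continuousAt.eventually_ne h).mono fun q m => ContDiffAt.sqrt
    (.sum fun i _ => .sum fun j _ => (((hg.sm_up i j).contDiffAt.comp q contDiffAt_fst).mul
      (co_cd i).contDiffAt).mul (co_cd j).contDiffAt) (uu_pos hg _ m).ne'

/-- bounds for the Hamiltonian -/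
theorem hm_jb (hg : Met g) {B A : Set (E n)} (hB : IsCompact B) (hA : IsCompact A)
    (h0 : ∀ p ∈ A, p ≠ 0) (C : ℝ) : ∃ c, ∀ (N : E n → ℝ) (X : Fin n → E n → ℝ), ∀ x ∈ B, ∀ p ∈ A,
      JB 3 N x C → (∀ i, JB 3 (X i) x C) → JB 3 (Hm g N X) (x, p) c := by
  obtain ⟨c, hc⟩ := jb_cpt 3 (hB.prod hA) fun q m => wn_sa hg (x := q.1) (h0 _ m.2)
  choose d hd using fun i => jb_cpt 3 (hB.prod hA) fun _ _ => SA.of (co_cd i)
  have f : ∀ {u : E n → ℝ} {x p : E n}, JB 3 u x C →
      JB 3 (fun q : E n × E n => u q.1) (x, p) ((3 : ℕ).factorial * C * 1 ^ 3) :=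
    fun {u x p} h => JB.comp (u := u) (f := fun q : E n × E n => q.1) (z := (x, p))
      h ((JD.lin (fst ℝ (E n) (E n))).mono (norm_fst_le ..)) le_rfl
  refine ⟨2 ^ 3 * ((3 : ℕ).factorial * C * 1 ^ 3) * c +
    ∑ i, 2 ^ 3 * ((3 : ℕ).factorial * C * 1 ^ 3) * d i, fun N X x hx p hp h1 h2 => ?_⟩
  have a := (f (p := p) h1).smul (hc (x, p) ⟨hx, hp⟩)
  have b := jb_sum Finset.univ fun i => (f (p := p) (h2 i)).smul (hd i (x, p) ⟨hx, hp⟩)
  exact a.sub b

theorem hm_sa (hg : Met g) (h : p ≠ 0) (h1 : SA N x) (h2 : ∀ i, SA (X i) x) :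
    SA (Hm g N X) (x, p) := by
  have f : ∀ {u : E n → ℝ}, SA u x → SA (fun q : E n × E n => u q.1) (x, p) :=
    fun h => SA.comp (f := fun q : E n × E n => q.1) (z := (x, p)) h (.of contDiff_fst)
  filter_upwards [f h1, wn_sa hg h, eventually_all.2 fun i => f (h2 i)] with q a b c
  exact (a.mul b).sub (.sum fun i _ => (c i).mul (co_cd i).contDiffAt)

theorem co_d (p a : E n) (i : Fin n) : HasDerivAt (fun s : ℝ => (p + s • a) i) (a i) 0 := by
  simpa using ((hasDerivAt_id (0 : ℝ)).mul_const (a i)).const_add (p i)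

theorem uu_d (g : Field n) (x p a q b : E n) :
    HasDerivAt (fun s : ℝ => uu g x (p + s • a) (q + s • b)) (uu g x a q + uu g x p b) 0 :=
  (HasDerivAt.fun_sum fun i _ => HasDerivAt.fun_sum fun j _ =>
    ((co_d p a i).const_mul (up g i j x)).fun_mul (co_d q b j)).congr_deriv (by
      simp [uu, Finset.sum_add_distrib])

theorem wn_d (hg : Met g) (h : p ≠ 0) (a : E n) :
    HasDerivAt (fun s : ℝ => wn g x (p + s • a)) (uu g x p a / wn g x p) 0 :=
  ((uu_d g x p a p a).sqrt (by simpa using (uu_pos hg x h).ne')).congr_deriv (by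
    rw [uu_sy hg x a, ← two_mul, mul_div_mul_left _ _ two_ne_zero, zero_smul, add_zero]; rfl)

theorem ln_d {F : Type} [NormedAddCommGroup F] [NormedSpace ℝ F] {G : E n × E n → F}
    (h : DifferentiableAt ℝ G (x, p)) (a : E n) :
    HasDerivAt (fun s : ℝ => G (x, p + s • a)) (fderiv ℝ G (x, p) (0, a)) 0 :=
  HasFDerivAt.comp_hasDerivAt_of_eq (f := fun s : ℝ => (x, p + s • a)) 0 h.hasFDerivAt
    ((hasDerivAt_const _ x).prodMk (by
      simpa using ((hasDerivAt_id (0 : ℝ)).smul_const a).const_add p)) (by simp)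

theorem hp (hg : Met g) (h : p ≠ 0) (d : DifferentiableAt ℝ (Hm g N X) (x, p)) (b : E n) :
    fderiv ℝ (Hm g N X) (x, p) (0, b) = N x * (uu g x p b / wn g x p) - ∑ k, X k x * b k :=
  (ln_d d b).unique (((wn_d hg h b).const_mul (N x)).sub
    (HasDerivAt.fun_sum fun k _ => (co_d p b k).const_mul (X k x)))

theorem nu_dot (a : E n) : ∑ k, a k * nu g x p k = uu g x a p / wn g x p := by
  simp only [nu, uu, Finset.sum_div, Finset.mul_sum]
  exact Finset.sum_congr rfl fun i _ => Finset.sum_congr rfl fun j _ => by ring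

theorem hpp (hg : Met g) (h : p ≠ 0) (s : SA (Hm g N X) (x, p)) (a b : E n) :
    N x / wn g x p * ∑ k, ∑ l, a k * Pr g x p k l * b l =
      fderiv ℝ (fderiv ℝ (Hm g N X)) (x, p) (0, a) (0, b) := by
  have w := (wn_pos hg x h).ne'
  have c : ContinuousAt (fun t : ℝ => (x, p + t • a)) 0 := by fun_prop
  have d1 := (ln_d s.fderiv.diff a).clm_apply (hasDerivAt_const _ ((0 : E n), b))
  have d2 := ((((uu_d g x p a b 0).div (wn_d hg h a) (by simpa using w)).const_mul (N x)).sub_const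
    (∑ k, X k x * b k)).congr_of_eventuallyEq
    (f₁ := fun t : ℝ => fderiv ℝ (Hm g N X) (x, p + t • a) (0, b)) (by
      filter_upwards [c.eventually (by simpa using s.ev),
        c.snd.eventually_ne (by simpa using h)] with t m m'
      simpa using hp hg m' m.diff b)
  have e : ∑ k, ∑ l, a k * Pr g x p k l * b l =
      uu g x a b - (∑ k, a k * nu g x p k) * ∑ l, b l * nu g x p l := by
    simp only [uu, Finset.sum_mul_sum, ← Finset.sum_sub_distrib, Pr]
    exact Finset.sum_congr rfl fun i _ => Finset.sum_congr rfl fun j _ => by ring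
  have := d1.unique d2
  simp only [map_zero, add_zero, zero_smul, smul_zero] at this
  rw [this, e, nu_dot, nu_dot, uu_sy hg x b p, uu_sy hg x a p, show uu g x p 0 = 0 by simp [uu]]
  field_simp
  ring

/-- the part of `Sg` which does not depend on `Q` -/
def AA (g K : Field n) (x p : E n) : Op n :=
  ∑ i, ∑ k, (wn g x p * K x i k - ∑ m, chr g m i k x * p m) •
    (EuclideanSpace.proj (𝕜 := ℝ) i).smulRight (EuclideanSpace.single k (1 : ℝ))

theorem sg_eq {Q : Op n} (h : Sym Q) (v : E n) (k : Fin n) :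
    ∑ i, v i * Sg g K x p Q i k = (Q v + AA g K x p v) k := by
  have e : Q v k = ∑ i, v i * Q (EuclideanSpace.single k 1) i := by
    have := h v (EuclideanSpace.single k 1)
    rw [EuclideanSpace.inner_single_right, PiLp.inner_apply] at this
    simpa [mul_comm] using this
  rw [PiLp.add_apply, e]
  simp [Sg, AA, Pi.single_apply, ← Finset.sum_add_distrib]
  exact Finset.sum_congr rfl fun i _ => by ring

theorem AA_cont (hg : Met g) (hK : ∀ i j, Smooth fun x => K x i j) (h : p ≠ 0) :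
    ContinuousAt (fun q : E n × E n => AA g K q.1 q.2) (x, p) :=
  tendsto_finsetSum _ fun i _ => tendsto_finsetSum _ fun k _ => ContinuousAt.smul
    (((wn_sa hg h).cont.mul ((hK i k).cont.comp continuous_fst).continuousAt).sub
      (continuous_finsetSum _ fun m _ => ((hg.sm_chr m i k).cont.comp continuous_fst).mul
        (co_cd m).continuous).continuousAt) continuousAt_const

/-! ### Scaling -/

theorem wn_smul (h : 0 ≤ l) : wn g x (l • p) = l * wn g x p := by
  rw [wn, wn, ← Real.sqrt_mul_self h, ← Real.sqrt_mul (mul_self_nonneg l), Real.sqrt_mul_self h]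
  simp only [Finset.mul_sum, PiLp.smul_apply, smul_eq_mul]
  exact congrArg _ (Finset.sum_congr rfl fun i _ => Finset.sum_congr rfl fun j _ => by ring)

theorem AA_smul (h : 0 ≤ l) : AA g K x (l • p) = l • AA g K x p := by
  simp only [AA, wn_smul h, Finset.smul_sum, smul_smul, mul_sub, Finset.mul_sum, PiLp.smul_apply,
    smul_eq_mul, mul_assoc, mul_left_comm l]

def SS (l : ℝ) : E n × E n →L[ℝ] E n × E n := (fst ℝ _ _).prod (l • snd ℝ _ _)

theorem sc1 (h : 0 ≤ l) {q : E n × E n} (d : DifferentiableAt ℝ (Hm g N X) (SS l q))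
    (u : E n × E n) : fderiv ℝ (Hm g N X) (SS l q) (SS l u) = l * fderiv ℝ (Hm g N X) q u := by
  have e : Hm g N X ∘ SS l = l • Hm g N X := funext fun q => by
    change N q.1 * wn g q.1 (l • q.2) - ∑ k, X k q.1 * (l • q.2) k = l * Hm g N X q
    simp only [Hm, wn_smul h, mul_sub, Finset.mul_sum, PiLp.smul_apply, smul_eq_mul,
      mul_left_comm l]
  have := (d.hasFDerivAt.comp q (SS l).hasFDerivAt).fderiv
  rw [e, fderiv_const_smul_field] at this
  exact (DFunLike.congr_fun this u).symm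

theorem sc2 (h : 0 ≤ l) {q : E n × E n} (s : SA (Hm g N X) (SS l q)) (s' : SA (Hm g N X) q)
    (u v : E n × E n) : fderiv ℝ (fderiv ℝ (Hm g N X)) (SS l q) (SS l u) (SS l v) =
      l * fderiv ℝ (fderiv ℝ (Hm g N X)) q u v :=
  DFunLike.congr_fun (((ContinuousLinearMap.apply ℝ ℝ (SS l v)).hasFDerivAt.comp q
    (s.fderiv.diff.hasFDerivAt.comp q (SS l).hasFDerivAt)).unique
    ((((ContinuousLinearMap.apply ℝ ℝ v).hasFDerivAt.comp q
      s'.fderiv.diff.hasFDerivAt).const_mul l).congr_of_eventuallyEq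
      (((SS l).continuous.continuousAt.eventually s.ev).mono fun _ m => sc1 h m.diff v))) u

/-- the equation for the covector -/
theorem xode {F : Type} [NormedAddCommGroup F] [InnerProductSpace ℝ F] [FiniteDimensional ℝ F]
    {H : F × F → ℝ} {c : ℝ → F} {s₁ s₂ D : ℝ} {p : F} (h : s₁ ≤ s₂) (d0 : 0 ≤ D)
    (hc : ContinuousOn c (Icc s₁ s₂)) (m : D * (s₂ - s₁) ≤ 1 / 2)
    (J : ∀ t ∈ Icc s₁ s₂, ∀ y ∈ closedBall p (1 / 2), JB 2 H (c t, y) D) :
    ∃ ξ : ℝ → F, ξ s₂ = p ∧ ∀ t ∈ Icc s₁ s₂, ξ t ∈ closedBall p (1 / 2) ∧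
      HasDerivWithinAt ξ (-TT (fderiv ℝ H (c t, ξ t) ∘L inl ℝ F F)) (Icc s₁ s₂) t := by
  have T : ∀ L : F × F →L[ℝ] ℝ, ‖-TT (L ∘L inl ℝ F F)‖ ≤ ‖L‖ := fun L => by
    rw [norm_neg]
    exact (TT.le_of_opNorm_le TT_le _).trans ((one_mul _).trans_le ((opNorm_comp_le _ _).trans
      (mul_le_of_le_one_right (norm_nonneg _) inl_le)))
  refine pl (f := fun t y => -TT (fderiv ℝ H (c t, y) ∘L inl ℝ F F)) (L := D) (K := D) h
    one_half_pos.le d0 d0 (fun t ht y hy z hz => ?_)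
    (fun y hy => (TT.continuous.comp_continuousOn (ContinuousOn.clm_comp (fun t ht =>
      (J t ht y hy).sm.fderiv.cont.comp_continuousWithinAt (f := fun t => (c t, y))
        ((hc t ht).prodMk continuousWithinAt_const)) continuousOn_const)).neg)
    (fun t ht y hy => (T _).trans ((J t ht y hy).jd.fderiv.zero)) m
  have k : ∀ q ∈ ({c t} : Set F) ×ˢ closedBall p (1 / 2), JB 2 H q D := by
    rintro ⟨_, y⟩ ⟨rfl, hy⟩
    exact J t ht y hy
  have := ((convex_singleton (c t)).prod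
    (convex_closedBall p (1 / 2))).norm_image_sub_le_of_norm_fderiv_le (𝕜 := ℝ)
    (fun q m => (k q m).sm.fderiv.diff) (fun q m => (k q m).jd.fderiv.jd.fderiv.zero)
    (x := (c t, z)) (y := (c t, y)) ⟨rfl, hz⟩ ⟨rfl, hy⟩
  rw [← neg_sub', ← map_sub, ← sub_comp]
  exact (T _).trans (this.trans_eq (by simp))

theorem jet : JET := by
  intro n g K N X B W C hg hK _ hB hW hJ
  have hA : IsCompact (closedBall (0 : E n) 2 \ ball 0 (1 / 2)) :=
    (isCompact_closedBall _ _).diff isOpen_ball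
  have h0 : ∀ p ∈ closedBall (0 : E n) 2 \ ball 0 (1 / 2), p ≠ 0 := fun p m e =>
    m.2 (e ▸ mem_ball_self one_half_pos)
  obtain ⟨c1, h1⟩ := hm_jb hg hB hA h0 C
  obtain ⟨c2, h2⟩ := (hB.prod hA).exists_bound_of_continuousOn fun q m =>
    (AA_cont hg hK (x := q.1) (h0 _ m.2)).continuousWithinAt
  obtain ⟨D, d0, d1, d2⟩ : ∃ D, 1 ≤ D ∧ c1 ≤ D ∧ c2 ≤ D :=
    ⟨max 1 (max c1 c2), le_max_left _ _, by simp, by simp⟩
  have d3 : D ≤ D ^ 3 := le_self_pow₀ d0 (by norm_num)
  refine ⟨(10 * D ^ 3)⁻¹, by positivity, fun s₁ s₂ ε c p Q₂ h hΔ hε hc hm p0 hQ => ?_⟩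
  have m : 10 * D ^ 3 * (s₂ - s₁) ≤ 1 := by
    rw [← le_div_iff₀' (by positivity), one_div]; linarith
  have l0 : 0 < ‖p‖ := norm_pos_iff.2 p0
  have n1 : ‖‖p‖⁻¹ • p‖ = 1 := norm_smul_inv_norm (𝕜 := ℝ) p0
  have mA : ∀ y ∈ closedBall (‖p‖⁻¹ • p) (1 / 2), y ∈ closedBall (0 : E n) 2 \ ball 0 (1 / 2) :=
    fun y hy => by
      have := abs_le.1 ((abs_norm_sub_norm_le _ _).trans (mem_closedBall_iff_norm.1 hy))
      exact ⟨mem_closedBall_zero_iff.2 (by linarith), fun k => by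
        linarith [mem_ball_zero_iff.1 k]⟩
  have J : ∀ t ∈ Icc s₁ s₂, ∀ y ∈ closedBall (‖p‖⁻¹ • p) (1 / 2), JB 2 (Hm g N X) (c t, y) D :=
    fun t ht y hy => ((h1 N X _ (hW (hm ht)) y (mA y hy) (hJ _ (hm ht)).1
      (hJ _ (hm ht)).2).mono d1).ord (by omega)
  obtain ⟨ξ, x0, hξ⟩ := xode h (by linarith) hc
    (by nlinarith [mul_le_mul_of_nonneg_right d3 (sub_nonneg.2 h)]) J
  have cq : ContinuousOn (fun t => (c t, ξ t)) (Icc s₁ s₂) :=
    hc.prodMk fun t ht => (hξ t ht).2.continuousWithinAt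
  obtain ⟨Q, q0, hQ'⟩ := qode (D := fun t => fderiv ℝ (fderiv ℝ (Hm g N X)) (c t, ξ t))
    (A := fun t => AA g K (c t) (ξ t)) (ε := ε / ‖p‖) (Q₂ := ‖p‖⁻¹ • Q₂) h d0
    (div_nonneg hε.1 l0.le)
    (fun t ht => (J t ht _ (hξ t ht).1).sm.fderiv.fderiv.cont.comp_continuousWithinAt
      (f := fun t => (c t, ξ t)) (cq t ht))
    (fun t ht => (AA_cont hg hK (h0 _ (mA _ (hξ t ht).1))).comp_continuousWithinAt
      (f := fun t => (c t, ξ t)) (cq t ht))
    (fun t ht => ⟨(J t ht _ (hξ t ht).1).jd.fderiv.jd.fderiv.zero,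
      (h2 (c t, ξ t) ⟨hW (hm ht), mA _ (hξ t ht).1⟩).trans d2,
      ((J t ht _ (hξ t ht).1).sm.at.isSymmSndFDerivAt (by simpa using le_inf 2)).eq⟩) m
    (fun v w => by simp only [smul_apply, inner_smul_left, inner_smul_right, hQ v w]; rfl)
  refine ⟨fun t => ‖p‖ • ξ t, fun t => ‖p‖ • Q t, by simp [x0, smul_smul, l0.ne'],
    by simp [q0, smul_smul, l0.ne'], fun s hs => ?_⟩
  obtain ⟨a1, a2⟩ := hξ s hs
  obtain ⟨b1, b2, b3⟩ := hQ' s hs
  have z0 := smul_ne_zero l0.ne' (h0 _ (mA _ a1))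
  have s0 : SA (Hm g N X) (SS ‖p‖ (c s, ξ s)) :=
    hm_sa hg z0 (hJ _ (hm hs)).1.sm fun i => ((hJ _ (hm hs)).2 i).sm
  have sy : Sym (‖p‖ • Q s) := fun v w => by
    simp only [smul_apply, inner_smul_left, inner_smul_right, b1 v w]; rfl
  refine ⟨⟨sy, ⟨_, a2.const_smul ‖p‖, fun v => ?_⟩, _, b3.const_smul ‖p‖, fun v w => ?_⟩, ?_, ?_⟩
  · have := sc1 l0.le s0.diff (v, 0)
    rw [real_inner_smul_left, inner_neg_left, TT_ap, mul_neg]
    exact congrArg _ (this.symm.trans (by simp [SS]))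
  · have e1 := sc2 l0.le s0 (J s hs _ a1).sm (0, Q s v + AA g K (c s) (ξ s) v)
      (0, Q s w + AA g K (c s) (ξ s) w)
    have e2 := sc2 l0.le s0 (J s hs _ a1).sm (v, Q s v) (w, Q s w)
    simp only [sg_eq sy]
    rw [hpp (x := c s) hg z0 s0, AA_smul l0.le, smul_apply, real_inner_smul_left, rh_ap, mul_sub, mul_add,
      ← e1, ← e2, ← mul_assoc, mul_div_cancel₀ _ l0.ne']
    simp only [smul_apply, ← smul_add]
    rfl
  · have := mul_le_mul_of_nonneg_left (mem_closedBall_iff_norm.1 a1) l0.le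
    rw [← norm_smul_of_nonneg l0.le, smul_sub, smul_smul, mul_inv_cancel₀ l0.ne', one_smul] at this
    linarith
  · have := mul_le_mul_of_nonneg_left b2 l0.le
    rw [norm_smul, norm_inv, norm_norm, mul_add, mul_add, mul_div_cancel₀ _ l0.ne', mul_left_comm,
      mul_inv_cancel_left₀ l0.ne'] at this
    rw [norm_smul, norm_norm]
    linarith [hε.2]

end Vale.Agent.P366OC
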