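import Vale.Agent.P366IV.Defs2
import Vale.Agent.P366OC.Jet

/-!
# P366OC: the Hamiltonian
-/

open Set Filter Topology Metric
open scoped ContDiff RealInnerProductSpace
open Vale.Agent.P366.Stmt Vale.Agent.P366Z Vale.Agent.P366IV
open Vale.Agent.P354YQ (SA JB JD)

noncomputable section

namespace Vale.Agent.P366OC

variable {n : ℕ} {g K : Field n} {N : E n → ℝ} {X : Fin n → E n → ℝ} {x p : E n}

theorem vv_in (η : E n) :
    ⟪Vv g N X x p, η⟫ = N x * (uu g x η p / wn g x p) - ∑ k, X k x * η k := by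
  rw [← nu_dot, Finset.mul_sum, ← Finset.sum_sub_distrib, PiLp.inner_apply]
  exact Finset.sum_congr rfl fun k _ => by simp [Vv]; ring

theorem uu_div (x p : E n) : uu g x p p / wn g x p = wn g x p := Real.div_sqrt

theorem nu_unit (hg : Met g) (h : p ≠ 0) : ∑ i, ∑ j, g x i j * nu g x p i * nu g x p j = 1 := by
  have e : ∀ i, ∑ j, g x i j * nu g x p i * nu g x p j = p i * nu g x p i / wn g x p := fun i => by
    rw [← hg.g_up_mul x i fun l => p l, Finset.sum_mul, Finset.sum_div]
    exact Finset.sum_congr rfl fun j _ => by rw [nu.eq_1 g x p j]; ring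
  simp only [e, ← Finset.sum_div, nu_dot, uu_div, div_self (wn_pos hg x h).ne']

theorem pr_nonneg (hg : Met g) (h : p ≠ 0) (a : Fin n → ℝ) :
    0 ≤ ∑ k, ∑ l, a k * Pr g x p k l * a l := by
  have e : ∑ k, ∑ l, a k * Pr g x p k l * a l = uu g x (WithLp.toLp 2 a) (WithLp.toLp 2 a) -
      (∑ k, a k * nu g x p k) * ∑ l, a l * nu g x p l := by
    simp only [uu, Finset.sum_mul_sum, ← Finset.sum_sub_distrib, Pr]
    exact Finset.sum_congr rfl fun i _ => Finset.sum_congr rfl fun j _ => by ring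
  rw [e, nu_dot (a := WithLp.toLp 2 a), div_mul_div_comm,
    show wn g x p * wn g x p = uu g x p p from Real.mul_self_sqrt (uu_pos hg x h).le, sub_nonneg,
    div_le_iff₀ (uu_pos hg x h), ← sq]
  exact hg.up_cs x a fun i => p i

section
variable {T : Type} [TopologicalSpace T] {a b : T → E n} {t : T} (hg : Met g)
  (ha : ContinuousAt a t) (hb : ContinuousAt b t) (h : b t ≠ 0)
include hb

theorem c_co (i : Fin n) : ContinuousAt (fun t => b t i) t :=
  (EuclideanSpace.proj (𝕜 := ℝ) i).continuous.continuousAt.comp hb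

include hg ha h

theorem c_wn : ContinuousAt (fun t => wn g (a t) (b t)) t :=
  (wn_sa hg h).cont.comp (f := fun t => (a t, b t)) (ha.prodMk hb)

theorem c_nu (i : Fin n) : ContinuousAt (fun t => nu g (a t) (b t) i) t :=
  ContinuousAt.div (tendsto_finsetSum _ fun j _ => ContinuousAt.mul
    ((hg.sm_up i j).cont.continuousAt.comp ha) (c_co hb j)) (c_wn hg ha hb h) (wn_pos hg _ h).ne'

end

theorem c_th (hg : Met g) (hK : ∀ i j, Smooth fun x => K x i j) (h : p ≠ 0) (Q : Op n) :
    ContinuousAt (fun q : E n × E n × Op n => Th g K q.1 q.2.1 q.2.2) (x, p, Q) := by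
  have a : ContinuousAt (fun q : E n × E n × Op n => q.1) (x, p, Q) := continuousAt_fst
  have b : ContinuousAt (fun q : E n × E n × Op n => q.2.1) (x, p, Q) := continuousAt_snd.fst
  refine ContinuousAt.div (tendsto_finsetSum _ fun i _ => tendsto_finsetSum _ fun j _ =>
    ContinuousAt.mul (((hg.sm_up i j).cont.continuousAt.comp a).sub
      ((c_nu hg a b h i).mul (c_nu hg a b h j))) (ContinuousAt.add (ContinuousAt.sub
      (c_co (continuousAt_snd.snd.clm_apply continuousAt_const) i)
      (tendsto_finsetSum _ fun k _ => ContinuousAt.mul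
        ((hg.sm_chr k i j).cont.continuousAt.comp a) (c_co b k)))
      ((c_wn hg a b h).mul ((hK i j).cont.continuousAt.comp a)))) (c_wn hg a b h)
    (wn_pos hg x h).ne'

theorem cs_le (hg : Met g) (x p : E n) (u : Fin n → ℝ) {c : ℝ} (c0 : 0 ≤ c)
    (h : ∑ i, ∑ j, g x i j * u i * u j ≤ c ^ 2) : ∑ i, u i * p i ≤ c * wn g x p := by
  have e : ∀ b : Fin n → ℝ, ∑ i, ∑ j, up g i j x * (∑ k, g x i k * u k) * b j = ∑ j, u j * b j :=
    fun b => by
      rw [Finset.sum_comm]
      exact Finset.sum_congr rfl fun j _ => by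
        rw [← Finset.sum_mul, ← hg.up_g_mul x j u]
        simp only [hg.up_sy j]
  have k := hg.up_cs x (fun i => ∑ k, g x i k * u k) fun i => p i
  rw [e, e] at k
  refine (le_abs_self _).trans (abs_le_of_sq_le_sq ?_ (mul_nonneg c0 (Real.sqrt_nonneg _)))
  rw [mul_pow, wn, Real.sq_sqrt (hg.up_nonneg x _)]
  refine k.trans (mul_le_mul_of_nonneg_right (le_of_eq_of_le ?_ h) (hg.up_nonneg x _))
  exact Finset.sum_congr rfl fun i _ => by
    rw [Finset.mul_sum]; exact Finset.sum_congr rfl fun j _ => by ring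

theorem ham : HAM := by
  intro n g K N X hg hK
  refine ⟨fun x p h => ⟨by rw [real_inner_comm, vv_in, uu_div]; rfl, nu_unit hg h, pr_nonneg hg h,
    c_th hg hK h, fun h1 h2 => ⟨hm_sa hg h h1 h2, ?_, fun η => by
      rw [hp hg h (hm_sa hg h h1 h2).diff, vv_in, uu_sy hg]⟩⟩, fun x p v h0 h => ?_,
    fun B C a b hB a0 => ?_⟩
  · exact (PiLp.continuous_toLp 2 _).continuousAt.comp (continuousAt_pi.2 fun k =>
      ((h1.cont.comp continuousAt_fst).mul (c_nu hg continuousAt_fst continuousAt_snd h k)).sub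
        ((h2 k).cont.comp continuousAt_fst))
  · have := cs_le hg x p _ h0 h
    simp only [add_mul, Finset.sum_add_distrib] at this
    rw [PiLp.inner_apply, Hm, le_sub_iff_add_le]
    simpa using this
  have hA : IsCompact (closedBall (0 : E n) b \ ball 0 a) :=
    (isCompact_closedBall _ _).diff isOpen_ball
  have h0 : ∀ p ∈ closedBall (0 : E n) b \ ball 0 a, p ≠ 0 := fun p m e =>
    m.2 (e ▸ mem_ball_self a0)
  obtain ⟨c1, h1⟩ := hm_jb hg hB hA h0 C
  obtain ⟨c, hc⟩ := (hB.prod hA).exists_bound_of_continuousOn (f := fun q : E n × E n =>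
    (∑ i, |nu g q.1 q.2 i|, ∑ i, ∑ j, K q.1 i j * nu g q.1 q.2 i * nu g q.1 q.2 j,
      (∑ i, up g i i q.1) / wn g q.1 q.2)) fun q m => by
    have u := c_nu hg continuousAt_fst continuousAt_snd (t := q) (h0 _ m.2)
    exact (ContinuousAt.prodMk (tendsto_finsetSum _ fun i _ => (u i).abs) (ContinuousAt.prodMk
      (tendsto_finsetSum _ fun i _ => tendsto_finsetSum _ fun j _ =>
        (((hK i j).cont.continuousAt.comp continuousAt_fst).mul (u i)).mul (u j))
      (ContinuousAt.div (continuous_finsetSum _ fun i _ =>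
        (hg.sm_up i i).cont.comp continuous_fst).continuousAt
        (c_wn hg continuousAt_fst continuousAt_snd (h0 _ m.2))
        (wn_pos hg _ (h0 _ m.2)).ne'))).continuousWithinAt
  refine ⟨max c1 (max (c * C + C * c) c), fun x hx hJ p p1 p2 => ?_⟩
  have m : p ∈ closedBall (0 : E n) b \ ball 0 a :=
    ⟨mem_closedBall_zero_iff.2 p2, fun k => (mem_ball_zero_iff.1 k).not_ge p1⟩
  obtain ⟨k1, k2, k3⟩ : _ ∧ _ ∧ _ := by simpa only [norm_prod_le_iff] using hc (x, p) ⟨hx, m⟩
  have c0 := hJ.1.nonneg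
  refine ⟨(h1 N X x hx p m hJ.1 hJ.2).mono (le_max_left _ _), le_max_of_le_right
    (le_max_of_le_left ((abs_add_le _ _).trans (add_le_add ?_ ?_))),
    le_max_of_le_right (le_max_of_le_right ((le_abs_self _).trans k3))⟩
  · refine (Finset.abs_sum_le_sum_abs _ _).trans (le_trans ?_
      (mul_le_mul_of_nonneg_right ((le_abs_self _).trans k1) c0))
    rw [Finset.sum_mul]
    exact Finset.sum_le_sum fun i _ => (abs_mul _ _).trans_le (mul_le_mul_of_nonneg_left
      ((abs_pd_le hJ.1.sm.diff i).trans (hJ.1.jd.fderiv.zero)) (abs_nonneg _))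
  · exact (abs_mul _ _).trans_le (mul_le_mul hJ.1.zero k2 (abs_nonneg _) c0)

end Vale.Agent.P366OC
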