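import Vale.Agent.P366IV.Defs3
import Vale.Agent.P366OC.Ham
import Vale.Agent.P366RY.Jet
import Vale.Agent.P366K3.Geo
import Vale.Agent.P366M.End4
import Vale.Agent.P366M.Inv2

/-!
# P366OC: large coordinate spheres are untrapped
-/

open Set Filter Topology Asymptotics
open scoped ContDiff
open Vale.Agent.P366.Stmt Vale.Agent.P366Z Vale.Agent.P366IV
open Vale.Agent.P366EN (Bo ev_pos)
open Vale.Agent.P366K3 (Af)
open Vale.Agent.P366M (Mfe xgj xTj R0 px yp)

noncomputable section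

namespace Vale.Agent.P366OC

variable {n : ℕ} {q : ℝ} {g g' K K' : Field n} {x : E n}

theorem th_ev (e : g =ᶠ[𝓝 x] g') (eK : K x = K' x) (p : E n) (Q : Op n) :
    Th g K x p Q = Th g' K' x p Q := by
  simp only [Th, Pr, Sg, nu, wn, up_of_eq e.eq_of_nhds, chr_of_ev e, eK]

theorem th_far (A : Af q g K) (hn : 3 ≤ n) : ∀ᶠ y in cocompact (E n),
    0 < Th g K y ((2 : ℝ) • y) ((2 : ℝ) • ContinuousLinearMap.id ℝ _) := by
  have ne : ∀ᶠ y : E n in cocompact (E n), (2 : ℝ) • y ≠ 0 :=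
    ev_pos.mono fun y h => smul_ne_zero two_ne_zero (norm_pos_iff.1 h)
  have b1 : ∀ i, Bo 0 fun y => nu g y ((2 : ℝ) • y) i := fun i => by
    obtain ⟨C, h⟩ := IsBigO.bound (A.u0 i i)
    refine IsBigO.of_bound (C + 1) ((h.and ne).mono fun y ⟨h1, h2⟩ => ?_)
    have := pr_nonneg (x := y) A.met h2 (Pi.single i 1)
    simp only [Pi.single_apply, ite_mul, mul_ite, one_mul, mul_one, zero_mul, mul_zero,
      Finset.sum_ite_eq', Finset.mem_univ, if_true, Pr] at this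
    simp only [neg_zero, Real.rpow_zero, norm_one, mul_one, Real.norm_eq_abs] at h1 ⊢
    nlinarith [le_abs_self (up g i i y), abs_mul_abs_self (nu g y ((2 : ℝ) • y) i),
      sq_nonneg (|nu g y ((2 : ℝ) • y) i| - 1 / 2)]
  have b2 : ∀ i, Bo (-1) fun y : E n => ((2 : ℝ) • y) i := fun i => Bo.cm 2 (by
    simp only [Bo, neg_neg, Real.rpow_one]
    exact IsBigO.of_bound' (.of_forall fun x => (AsyF.abs_coord x i).trans_eq (norm_norm x).symm))
  have b3 : Bo (-1) fun y => wn g y ((2 : ℝ) • y) :=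
    (Bo.sum fun k => (b2 k).mul (b1 k) (add_zero _).ge).congr
      (.of_forall fun y => by simp only [nu_dot, uu_div])
  have b4 := ((Bo.sum fun i => Bo.sum fun j => ((A.u0 i j).sub ((b1 i).mul (b1 j)
    (add_zero _).ge)).mul (((A.k0 i j).mul b3 (q := q) (by linarith)).sub (Bo.sum fun k =>
      (A.c0 k i j).mul (b2 k) (by linarith))) (zero_add _).ge).add (((Bo.sum fun i =>
        P366EN.bo_iff.1 (A.u2 i i).d0).add (Bo.sum fun i => Bo.sum fun j =>
          ((P366EN.bo_iff.1 (A.g2 i j).d0).mul (b1 i) (add_zero _).ge).mul (b1 j)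
            (add_zero _).ge)).cm 2)).lim0 A.q0
  filter_upwards [ne, b4.eventually (lt_mem_nhds (show (-1 : ℝ) < 0 by norm_num))] with y h1 h2
  refine div_pos ?_ (wn_pos A.met y h1)
  have h3 : (3 : ℝ) ≤ n := by exact_mod_cast hn
  have e : ∀ i j, Pr g y ((2 : ℝ) • y) i j * Sg g K y ((2 : ℝ) • y)
      ((2 : ℝ) • ContinuousLinearMap.id ℝ _) i j = Pr g y ((2 : ℝ) • y) i j *
        (K y i j * wn g y ((2 : ℝ) • y) - ∑ k, chr g k i j y * ((2 : ℝ) • y) k) +
      if i = j then 2 * Pr g y ((2 : ℝ) • y) i j else 0 := fun i j => by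
    rw [Sg, smul_apply, ContinuousLinearMap.id_apply,
      PiLp.smul_apply _ _ (EuclideanSpace.single _ _), PiLp.single_apply]
    split_ifs <;> simp only [smul_eq_mul] <;> ring
  simp only [e, Finset.sum_add_distrib, Finset.sum_ite_eq, Finset.mem_univ, if_true]
  simp only [Pr, Matrix.one_apply, sub_mul (g y _ _), sub_mul (_ * nu g y _ _), ite_mul, one_mul,
    zero_mul, Finset.sum_sub_distrib, nu_unit A.met h1, Finset.sum_ite_eq, Finset.mem_univ, if_true,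
    ← Finset.mul_sum, Finset.sum_const, Finset.card_univ, Fintype.card_fin, nsmul_eq_mul,
    mul_one] at h2 ⊢
  linarith

theorem af_of {M : Type} [Mfe n M] {Z : P366F.Dat n M} (hZ : Z.Ok) :
    Af Z.q (xgj Mfe.o Z.D.g) (xTj Mfe.o Z.D.K fun _ _ _ => 0) := by
  have h3 : (3 : ℝ) ≤ n := by exact_mod_cast hZ.dim
  have e : ∀ i j, (fun y => xTj Mfe.o Z.D.K (fun _ _ _ => 0) y i j) =ᶠ[cocompact (E n)]
      fun y => P366M.fe Z.D.K y i j := fun i j =>
    P366EN.ev_iff.2 ⟨R0 M + 1 / 2, fun y h => congrFun₂ (P366M.xTj_eq h.le) i j⟩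
  refine ⟨Z.D.met.xgj _, Z.D.smK.xTj _ fun _ _ => contDiff_const, fun y i j => ?_,
    by linarith [hZ.q0], fun i j => o_congr (hZ.og i j) (ev_iff.1 ⟨R0 M + 1 / 2, fun y h => ?_⟩),
    fun i j => (P366EN.bo_iff.1 (hZ.oK i j).1).congr (e i j), fun k i j =>
      ((P366EN.bo_iff.1 ((hZ.oK i j).2 k)).mono (by linarith)).congr (P366EN.ev_pd (e i j) k)⟩
  · rw [P366M.xTj_apply, P366M.xTj_apply, Z.D.syK]
  · rw [P366M.xgj_eq h.le]; rfl

theorem far : FAR := fun n M _ Z _ hZ => by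
  obtain ⟨R, hR⟩ := P366EN.ev_iff.1 (th_far (af_of hZ) hZ.dim)
  refine ⟨max R (R0 M + 1 / 2) + 1, fun x hx => ?_⟩
  obtain ⟨x1, x2⟩ := max_lt_iff.1 ((lt_add_one _).trans_le hx)
  have r0 := P366M.R0_ge M
  obtain ⟨y, rfl, h⟩ : ∃ y, x = P366M.ye Mfe.o y ∧ px x = y :=
    ⟨_, (P366M.yp_px (by linarith)).symm, rfl⟩
  rw [h] at x1 x2
  have r1 : R0 M < ‖y‖ := by linarith
  have y0 : (2 : ℝ) • y ≠ 0 := smul_ne_zero two_ne_zero (norm_pos_iff.1 (by linarith))
  have e : P366M.loc (P366M.ch (P366M.ye (M := M) Mfe.o y)) (fun z : M => ‖px z‖ ^ 2) =ᶠ[𝓝 y]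
      fun z => ‖z‖ ^ 2 := (P366M.loc_ye r1.le _).trans
        ((P366M.ev_lt_norm r1).mono fun z hz => by simp only [P366M.fj, P366M.px_ye' hz.le])
  have h1 := fun i => (pd_congr e i).trans (pd_normSq i y)
  refine ⟨?_, ?_⟩
  · by_contra! k
    simp only [P366M.pd, P366M.pt_ye r1.le, h1] at k
    exact y0 (PiLp.ext k)
  rw [← P366M.thetaPlus_pt, P366M.pt_ye r1.le, P366RY.th n _ _ _ y _ ((2 : ℝ) •
    ContinuousLinearMap.id ℝ _) (Z.D.met.rep (P366M.ch_mem _)) h1 (fun i j => by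
      rw [pd_congr (pd_congr_ev e j), funext (pd_normSq j), pd_const_mul, pd_coord]
      simp) y0, th_ev ((P366M.rep_ye r1 _).trans (P366M.xgj_ev x2).symm)
    ((P366M.rep_ye r1 _).trans (P366M.xTj_ev x2).symm).eq_of_nhds]
  exact hR y x1

end Vale.Agent.P366OC
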