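import Vale.Agent.P366IV.Defs2

/-!
# P366OC: the formula of Taylor on the positive side of a quadric
-/

set_option maxSynthPendingDepth 3

open Set Filter Topology
open scoped ContDiff RealInnerProductSpace
open Vale.Agent.P366.Stmt Vale.Agent.P366IV
open Vale.Agent.P354YQ (JD le_inf)

noncomputable section

namespace Vale.Agent.P366OC

variable {n : ℕ} {p y : E n} {Q : Op n} {ρ b t : ℝ}

/-- the parabola from the origin to `y` -/
def pa (p y : E n) (b t : ℝ) : E n := t • y + ((t - t ^ 2) * b) • (‖p‖⁻¹ • p)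

theorem pa_bd (hp : p ≠ 0) (hQ : 3 * (‖Q‖ * ρ) ≤ ‖p‖) (hy : y ∈ Wb p Q ρ) (b0 : 0 ≤ b)
    (b1 : 3 * b ≤ ρ) (b2 : ‖Q‖ * ‖y‖ ^ 2 ≤ b * ‖p‖) (ht : t ∈ Icc (0 : ℝ) 1) :
    (t - t ^ 2) * b * (‖p‖ / 9) ≤ Pq p Q (pa p y b t) ∧ ‖pa p y b t‖ ≤ ρ - (1 - t) * (2 * ρ / 3) := by
  obtain ⟨t0, t1⟩ := ht
  obtain ⟨y0, y1⟩ := hy
  have n1 : ‖‖p‖⁻¹ • p‖ = 1 := norm_smul_inv_norm (𝕜 := ℝ) hp
  have pe : ⟪p, ‖p‖⁻¹ • p⟫ = ‖p‖ := by
    rw [real_inner_smul_right, real_inner_self_eq_norm_mul_norm,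
      inv_mul_cancel_left₀ (norm_ne_zero_iff.2 hp)]
  rw [pa]
  generalize ‖p‖⁻¹ • p = e at n1 pe
  have s0 : 0 ≤ t - t ^ 2 := by nlinarith
  have s1 : t - t ^ 2 ≤ 1 / 4 := by nlinarith [sq_nonneg (t - 1 / 2)]
  have q : ∀ u v : E n, |⟪Q u, v⟫| ≤ ‖Q‖ * ‖u‖ * ‖v‖ := fun u v => (abs_real_inner_le_norm _ _).trans
    (mul_le_mul_of_nonneg_right (Q.le_opNorm u) (norm_nonneg _))
  have c0 := mul_nonneg s0 b0
  have nQ := norm_nonneg Q
  have r0 := (norm_nonneg _).trans y1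
  refine ⟨?_, (norm_add_le _ _).trans ?_⟩
  · have k : ‖Q‖ * ‖y‖ ≤ ‖p‖ / 3 := by linarith [mul_le_mul_of_nonneg_left y1 nQ]
    have q1 := (abs_le.1 (q y y)).2
    have q2 := (abs_le.1 (q y e)).1
    have q3 := (abs_le.1 (q e y)).1
    have q4 := (abs_le.1 (q e e)).1
    rw [n1] at q2 q3 q4
    have k1 : (t - t ^ 2) * ⟪Q y, y⟫ ≤ (t - t ^ 2) * b * ‖p‖ := by
      rw [mul_assoc]; exact mul_le_mul_of_nonneg_left (by linarith) s0
    have k2 : -(‖p‖ / 3) ≤ t * ⟪Q y, e⟫ := by nlinarith [norm_nonneg p]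
    have k3 : -(‖p‖ / 3) ≤ t * ⟪Q e, y⟫ := by nlinarith [norm_nonneg p]
    have k4 : (t - t ^ 2) * b * ‖Q‖ ≤ ‖p‖ / 36 := by
      have := mul_le_mul s1 (mul_le_mul_of_nonneg_left b1 nQ) (by positivity) (by norm_num)
      linarith
    have k5 : -(‖p‖ / 36) ≤ (t - t ^ 2) * b * ⟪Q e, e⟫ := by nlinarith
    have k6 := mul_nonneg t0 y0
    simp only [Pq, map_add, map_smul, inner_add_left, inner_add_right, real_inner_smul_left,
      real_inner_smul_right, pe] at k6 ⊢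
    nlinarith [mul_le_mul_of_nonneg_left k2 c0, mul_le_mul_of_nonneg_left k3 c0,
      mul_le_mul_of_nonneg_left k5 c0, mul_nonneg c0 (norm_nonneg p)]
  · rw [norm_smul, norm_smul, n1, Real.norm_of_nonneg t0, Real.norm_of_nonneg c0]
    nlinarith [mul_le_mul_of_nonneg_left y1 t0, mul_le_mul_of_nonneg_left b1 s0,
      mul_nonneg r0 (sq_nonneg (1 - t))]

theorem pa_d (p y : E n) (b t : ℝ) :
    HasDerivAt (pa p y b) (y + ((1 - 2 * t) * b) • (‖p‖⁻¹ • p)) t :=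
  (((hasDerivAt_id t).smul_const y).add ((((hasDerivAt_id t).sub (hasDerivAt_pow 2 t)).mul_const
    b).smul_const (‖p‖⁻¹ • p))).congr_deriv (by simp)

theorem mv (hp : p ≠ 0) (hQ : 3 * (‖Q‖ * ρ) ≤ ‖p‖) (hy : y ∈ Wb p Q ρ) {G : Type}
    [NormedAddCommGroup G] [NormedSpace ℝ G] {F : E n → G} {F' : E n → E n →L[ℝ] G} {c : ℝ}
    (h : ∀ z ∈ Wb p Q ρ, ‖z‖ ≤ ‖y‖ → HasFDerivAt F (F' z) z ∧ ‖F' z‖ ≤ c) :
    ‖F y - F 0‖ ≤ c * (2 * ‖y‖) := by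
  have p0 := norm_pos_iff.2 hp
  have k : 3 * (‖Q‖ * ‖y‖) ≤ ‖p‖ := by linarith [mul_le_mul_of_nonneg_left hy.2 (norm_nonneg Q)]
  obtain ⟨b, b0, b1, b2⟩ : ∃ b, 0 ≤ b ∧ 3 * b ≤ ‖y‖ ∧ ‖Q‖ * ‖y‖ ^ 2 ≤ b * ‖p‖ :=
    ⟨‖y‖ / 3, by positivity, by linarith, by nlinarith [norm_nonneg y]⟩
  have m : ∀ t ∈ Icc (0 : ℝ) 1, HasFDerivAt F (F' (pa p y b t)) (pa p y b t) ∧
      ‖F' (pa p y b t)‖ ≤ c := fun t ht => by
    obtain ⟨a1, a2⟩ := pa_bd hp k ⟨hy.1, le_rfl⟩ b0 b1 b2 ht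
    have a3 : ‖pa p y b t‖ ≤ ‖y‖ := by nlinarith [norm_nonneg y, ht.2]
    exact h _ ⟨le_trans (mul_nonneg (mul_nonneg (by nlinarith [ht.1, ht.2]) b0) (by positivity)) a1,
      a3.trans hy.2⟩ a3
  have := norm_image_sub_le_of_norm_deriv_le_segment_01' (f := fun t => F (pa p y b t))
    (C := c * (2 * ‖y‖)) (fun t ht => ((m t ht).1.comp_hasDerivAt t (pa_d p y b t)).hasDerivWithinAt)
    fun t ht => (F' _).le_of_opNorm_le_of_le (m t (Ico_subset_Icc_self ht)).2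
      ((norm_add_le _ _).trans (by
        rw [norm_smul, show ‖‖p‖⁻¹ • p‖ = 1 from norm_smul_inv_norm (𝕜 := ℝ) hp, norm_mul,
          Real.norm_of_nonneg b0]
        have : ‖1 - 2 * t‖ ≤ 1 := abs_le.2 ⟨by linarith [ht.2], by linarith [ht.1]⟩
        nlinarith [norm_nonneg y]))
  simpa [pa] using this

theorem tay : TAY := by
  intro n p Q ρ r0 hp hQ
  have p0 := norm_pos_iff.2 hp
  refine ⟨fun y hy => mem_closure_of_tendsto (f := pa p y (ρ / 3)) (b := 𝓝[<] 1)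
    (((pa_d p y _ 1).continuousAt.tendsto.mono_left nhdsWithin_le_nhds).trans_eq (by simp [pa]))
    (mem_of_superset (Ioo_mem_nhdsLT one_pos) fun t ht => ?_), ?_⟩
  · obtain ⟨a1, a2⟩ := pa_bd hp hQ hy (b := ρ / 3) (by positivity) (by linarith) (by
      have := mul_le_mul_of_nonneg_left (pow_le_pow_left₀ (norm_nonneg _) hy.2 2) (norm_nonneg Q)
      nlinarith) (Ioo_subset_Icc_self ht)
    exact ⟨lt_of_lt_of_le (mul_pos (mul_pos (by nlinarith [ht.1, ht.2]) (by positivity))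
      (by positivity)) a1, by nlinarith [ht.2]⟩
  have h1 : ∀ (G : Type) [NormedAddCommGroup G] [NormedSpace ℝ G] (F : E n → G) (C : ℝ),
      ∀ y ∈ Wb p Q ρ, (∀ z ∈ Wb p Q ρ, JD 1 F z C) → ‖F y - F 0‖ ≤ 2 * C * ‖y‖ :=
    fun G _ _ F C y hy h => (mv hp hQ hy fun z hz _ =>
      ⟨(h z hz).sm.diff.hasFDerivAt, (h z hz).fderiv.zero⟩).trans_eq (by ring)
  have h2 : ∀ (G : Type) [NormedAddCommGroup G] [NormedSpace ℝ G] (F : E n → G) (C : ℝ),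
      ∀ y ∈ Wb p Q ρ, (∀ z ∈ Wb p Q ρ, JD 2 F z C) →
        ‖F y - F 0 - fderiv ℝ F 0 y‖ ≤ 4 * C * ‖y‖ ^ 2 := fun G _ _ F C y hy h => by
    have := mv hp hQ hy (F := fun z => F z - fderiv ℝ F 0 z) (c := 2 * C * ‖y‖) fun z hz m =>
      ⟨(h z hz).sm.diff.hasFDerivAt.sub (fderiv ℝ F 0).hasFDerivAt,
        (h1 _ _ C z hz fun w hw => (h w hw).fderiv.jd).trans (mul_le_mul_of_nonneg_left m
          (mul_nonneg two_pos.le (h y hy).fderiv.nonneg))⟩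
    rw [map_zero, sub_zero, sub_right_comm] at this
    exact this.trans_eq (by ring)
  refine fun G _ _ F C y hy => ⟨h1 G F C y hy, h2 G F C y hy, fun h => ?_⟩
  have sy := ((h 0 ⟨by simp [Pq], by simpa using r0.le⟩).sm.at.isSymmSndFDerivAt
    (by simpa using le_inf 2)).eq
  have := mv hp hQ hy (F := fun z => F z - fderiv ℝ F 0 z -
    (1 / 2 : ℝ) • fderiv ℝ (fderiv ℝ F) 0 z z) (c := 4 * C * ‖y‖ ^ 2)
    (F' := fun z => fderiv ℝ F z - fderiv ℝ F 0 - fderiv ℝ (fderiv ℝ F) 0 z) fun z hz m =>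
      ⟨(((h z hz).sm.diff.hasFDerivAt.sub (fderiv ℝ F 0).hasFDerivAt).sub
        (((fderiv ℝ (fderiv ℝ F) 0).hasFDerivAt.clm_apply (hasFDerivAt_id z)).const_smul
          (1 / 2 : ℝ))).congr_fderiv (by
          ext v
          simp [sy v z, ← two_smul ℝ, smul_smul]),
        (h2 _ _ C z hz fun w hw => (h w hw).fderiv.jd).trans (mul_le_mul_of_nonneg_left
          (pow_le_pow_left₀ (norm_nonneg _) m 2) (mul_nonneg four_pos.le (h y hy).fderiv.nonneg))⟩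
  simp only [map_zero, smul_zero, sub_zero] at this
  rw [sub_right_comm, sub_right_comm (F y)] at this
  exact this.trans_eq (by ring)

end Vale.Agent.P366OC
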