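import Vale.Agent.P366IV.Defs3
import Vale.Agent.P366RY.Ray
import Vale.Agent.P366M.Inv2

/-!
# P366OC: the equations on `U` in the form of P366IV
-/

open Set Filter Topology
open scoped ContDiff
open Vale.Agent.P366.Stmt Vale.Agent.P366Z Vale.Agent.P366IV

noncomputable section

namespace Vale.Agent.P366OC

variable {n : ℕ} {g : Field n}

theorem lin_nrm (hg : Met g) (x : E n) {ν : Fin n → ℝ} (h : ∑ i, ∑ j, g x i j * ν i * ν j = 1) :
    ∃ u : E n → ℝ, gn g u x = 1 ∧ ∀ i, nrm g u i x = ν i := by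
  have h1 : ∀ i, pd i (fun y : E n => ∑ j, (∑ k, g x j k * ν k) * y j) x = ∑ k, g x i k * ν k :=
    fun i => by
      rw [pd_sum _ fun j _ => ((contDiff_coord (m := 1) j).differentiable one_ne_zero x).const_mul _]
      simp [pd_const_mul, pd_coord]
  have h2 : gn g (fun y : E n => ∑ j, (∑ k, g x j k * ν k) * y j) x = 1 := by
    rw [gn, ip_eq_gr, Real.sqrt_eq_one, ← h]
    simp only [gr, h1, hg.up_g_mul x _ ν]
    exact Finset.sum_congr rfl fun i _ => by
      rw [Finset.sum_mul]; exact Finset.sum_congr rfl fun j _ => by ring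
  refine ⟨_, h2, fun i => ?_⟩
  rw [nrm, ← gn_eq_covNorm, h2]
  simp only [h1, hg.up_g_mul x _ ν, div_one]

theorem kid : KID := fun n M _ Z _ hZ hN e he y hy => by
  have hg := Z.D.met.rep he
  have ev := (P366M.cont_symm he).continuousAt.eventually (hZ.op.mem_nhds hy) |>.mono
    fun z hz => hZ.eq e he z hz
  refine ⟨ev.mono fun z h => h.smN, fun i => ev.mono fun z h => h.smX i,
    ev.mono fun z h => h.kil, fun ν hν => ?_⟩
  obtain ⟨u, h1, h2⟩ := lin_nrm hg y hν
  have := hN e he y u hy (h1 ▸ one_pos)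
  simp only [P366XR.Nc, trS, h2] at this
  rwa [P366RY.mt_eq hg]

end Vale.Agent.P366OC
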